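import Vale.Agent.P011.H74.Odd.Emb

/-!
# The two norms lemma: the core

`E / R` is Galois of prime degree, `M / R` is finite separable.  If `M` is totally split at the
places where `x` is not a local norm from `E`, then `x` is the product of a norm from `M` and of an
element which is everywhere a local norm from `E`.
-/

open Polynomial Module TensorProduct

set_option linter.unusedSectionVars false
set_option linter.style.haveILetI false

namespace Vale.Agent.P011.H74.Odd

open Vale.Agent.P011.H738 Vale.Agent.P011.H271 Vale.Agent.P011.H271.S3 Vale.Agent.P011.H973.PF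
open Vale.Agent.P011.H511.FF
open Vale.Agent.P011.Hey.H63 (IsN toM toM_tmul norm_map LocN locN_iff norm_one_tmul)

/-- The law of reciprocity at one place. -/
def Rcp (R R' : Type) [Field R] [Field R'] [Algebra R R'] (w0 : Place R) : Prop :=
  ∀ z : R, (∀ w : Place R, w ≠ w0 → LocN R' z w) → LocN R' z w0

/-- Not everything is a local norm at the place. -/
def NSp (R R' : Type) [Field R] [Field R'] [Algebra R R'] (w0 : Place R) : Prop :=
  ∃ z : R, z ≠ 0 ∧ ¬ LocN R' z w0

/-- The norm index, first half. -/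
def N1 (p : ℕ) : Prop := ∀ (R R' : Type) [Field R] [GFF R] [Field R'] [Algebra R R']
  [FiniteDimensional R R'] [IsGalois R R'], finrank R R' = p → ∀ w0 : Place R, Rcp R R' w0 →
    NSp R R' w0 → ∀ V : Set (Place R), V.Finite → ∀ x : Place R → R, (∀ v ∈ V, x v ≠ 0) →
      ∃ y : R, y ≠ 0 ∧ (∀ v ∈ V, v ≠ w0 → LocN R' (y / x v) v) ∧
        ∀ v, v ∉ V → v ≠ w0 → LocN R' y v

/-- The norm index, second half. -/
def N2 (p : ℕ) : Prop := ∀ (R R' : Type) [Field R] [GFF R] [Field R'] [Algebra R R']
  [FiniteDimensional R R'] [IsGalois R R'], finrank R R' = p → ∀ S : Set (Place R), S.Finite →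
    ∃ w0 : Place R, w0 ∉ S ∧ Rcp R R' w0 ∧ NSp R R' w0

/-- Weak approximation, multiplicative form. -/
theorem weakM {M : Type} [Field M] [GFF M] (S : Finset (Place M)) (τ : Place M → M)
    (hτ : ∀ W ∈ S, τ W ≠ 0) (ε : Place M → ℝ) (hε : ∀ W ∈ S, 0 < ε W) :
    ∃ t : M, t ≠ 0 ∧ ∀ W ∈ S, W.abv (t / τ W - 1) < ε W := by
  classical
  rcases S.eq_empty_or_nonempty with h0 | ⟨W0, hW0⟩
  · subst h0
    exact ⟨1, one_ne_zero, fun W hW => by simp at hW⟩
  obtain ⟨γ, hγ, hγl⟩ := exists_lb S (fun W => min (ε W) 1 * W.abv (τ W)) fun W hW =>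
    mul_pos (lt_min (hε W hW) one_pos) (W.abv.pos (hτ W hW))
  obtain ⟨t, ht⟩ := weakP S τ hγ
  have h1 : ∀ W ∈ S, W.abv (t / τ W - 1) < min (ε W) 1 := by
    intro W hW
    have h2 := W.abv.pos (hτ W hW)
    have e : t / τ W - 1 = (t - τ W) / τ W := by
      have := hτ W hW
      field_simp
    rw [e, map_div₀, div_lt_iff₀ h2]
    exact (ht W hW).trans_le (hγl W hW)
  refine ⟨t, ?_, fun W hW => (h1 W hW).trans_le (min_le_left _ _)⟩
  rintro rfl
  have h2 := (h1 W0 hW0).trans_le (min_le_right _ _)
  rw [zero_div, zero_sub, AbsoluteValue.map_neg, map_one] at h2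
  exact lt_irrefl _ h2

theorem locN_zero {R E : Type} [Field R] [Field E] [Algebra R E] [FiniteDimensional R E]
    (v : Place R) : LocN E (0 : R) v := by
  refine ⟨0, ?_⟩
  rw [map_zero (algebraMap R v.comp)]
  exact Algebra.norm_zero

theorem norm_div' {R M : Type} [Field R] [Field M] [Algebra R M] [FiniteDimensional R M]
    (a : M) {b : M} (hb : b ≠ 0) :
    Algebra.norm R (a / b) = Algebra.norm R a / Algebra.norm R b := by
  rw [eq_div_iff (Algebra.norm_ne_zero_iff.2 hb), ← map_mul, div_mul_cancel₀ _ hb]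

section up

variable {R E M M' : Type} [Field R] [GFF R] [Field E] [Field M] [Field M'] [Algebra R E]
  [Algebra R M] [Algebra R M'] [Algebra M M'] [Algebra E M'] [IsScalarTower R M M']
  [IsScalarTower R E M'] [FiniteDimensional R E] [FiniteDimensional R M] [FiniteDimensional M M']
  [Algebra.IsSeparable R M] [Algebra.IsSeparable R E] [Algebra.IsSeparable M M']

/-- An element of `M` which is a local norm at all places but one above a place where its norm is a
local norm. -/
theorem locN_last (hb : Function.Bijective (toM : M ⊗[R] E →ₐ[M] M')) {v : Place R}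
    (hTS : TS R M v) (φ : M →ₐ[R] v.comp) {z : M} (hz : z ≠ 0)
    (h : LocN E (Algebra.norm R z) v)
    (h' : ∀ W : Place M, Ab W v → W ≠ plE φ → LocN M' z W) : LocN M' z (plE φ) := by
  classical
  refine locN_of_isN hb φ hz ?_
  have h1 : IsN R E v.comp (algebraMap R v.comp (Algebra.norm R z)) := h
  rw [hTS.norm_eq] at h1
  rw [← Finset.mul_prod_erase Finset.univ _ (Finset.mem_univ φ)] at h1
  have h2 : ∀ s : Finset (M →ₐ[R] v.comp), (∀ ψ ∈ s, ψ ≠ φ) →
      IsN R E v.comp (∏ ψ ∈ s, ψ z) := by
    intro s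
    induction s using Finset.induction_on with
    | empty =>
      intro _
      rw [Finset.prod_empty]
      exact Hey.H63.IsN.one
    | insert ψ s hψ ih =>
      intro hs
      rw [Finset.prod_insert hψ]
      refine Hey.H63.IsN.mul ?_ (ih fun a ha => hs a (Finset.mem_insert_of_mem ha))
      exact isN_of_locN hb ψ hz (h' _ (plE_ab ψ) fun h => hs ψ (Finset.mem_insert_self _ _)
        (plE_inj h))
  have h3 := h2 (Finset.univ.erase φ) fun ψ hψ => Finset.ne_of_mem_erase hψ
  have h4 := h1.mul h3.inv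
  rwa [mul_assoc, mul_inv_cancel₀, mul_one] at h4
  rw [Finset.prod_ne_zero_iff]
  intro ψ _
  exact (_root_.map_ne_zero ψ).2 hz

theorem rcp_up (hb : Function.Bijective (toM : M ⊗[R] E →ₐ[M] M')) {v : Place R}
    (hTS : TS R M v) (φ : M →ₐ[R] v.comp) (h : Rcp R E v) : Rcp M M' (plE φ) := by
  haveI : GFF M := Hey.H63.gff_of_finite (k := R)
  intro z hz
  by_cases hz0 : z = 0
  · subst hz0
    exact locN_zero _
  refine locN_last hb hTS φ hz0 (h _ fun w hw => locN_norm hz0 fun W hW => hz W ?_)
    fun W _ hW => hz W hW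
  rintro rfl
  exact hw ((av_of_ab hW).unique (av_of_ab (plE_ab φ)))

theorem nsp_up (hb : Function.Bijective (toM : M ⊗[R] E →ₐ[M] M')) {v : Place R}
    (φ : M →ₐ[R] v.comp) (h : NSp R E v) : NSp M M' (plE φ) := by
  obtain ⟨z, hz, h1⟩ := h
  refine ⟨algebraMap R M z, (_root_.map_ne_zero _).2 hz, fun h2 => h1 ?_⟩
  have h3 := isN_of_locN hb φ ((_root_.map_ne_zero _).2 hz) h2
  rwa [φ.commutes] at h3

end up

/-- **The core of the two norms lemma.** -/
theorem two_norm_core {p : ℕ} (hp : p.Prime) (hN1 : N1 p) {R E : Type} [Field R] [GFF R]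
    [Field E] [Algebra R E] [FiniteDimensional R E] [IsGalois R E] (hE : finrank R E = p)
    {w0 : Place R} (hr : Rcp R E w0) (hn : NSp R E w0) {x : R} (hx : x ≠ 0)
    (V : Finset (Place R)) (hV : ∀ v, v ∉ V → LocN E x v) {M : Type} [Field M] [Algebra R M]
    [FiniteDimensional R M] [Algebra.IsSeparable R M] (hT0 : TS R M w0) (hT : ∀ v ∈ V, TS R M v)
    (φ : ∀ v : Place R, v ∈ V → (M →ₐ[R] v.comp)) (S : Finset (Place M))
    (hS : ∀ v hv, plE (φ v hv) ∉ S) (g : Place M → M) (hg : ∀ W ∈ S, g W ≠ 0) :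
    ∃ y : M, y ≠ 0 ∧ (∀ v, LocN E (x / Algebra.norm R y) v) ∧
      ∀ W ∈ S, W.abv (y - 1) < W.abv (g W) := by
  classical
  haveI : GFF M := Hey.H63.gff_of_finite (k := R)
  obtain ⟨φ0, hφ0⟩ : ∃ φ0 : M →ₐ[R] w0.comp, ∀ h : w0 ∈ V, φ0 = φ w0 h := by
    by_cases h : w0 ∈ V
    · exact ⟨φ w0 h, fun _ => rfl⟩
    · obtain ⟨φ0⟩ := hT0.exists_emb
      exact ⟨φ0, fun h' => (h h').elim⟩
  have hne : ∀ _ : E →ₐ[R] M, False := by
    intro ψ
    obtain ⟨z, -, hz⟩ := hn
    exact hz (Hey.H63.IsN.of_algHom (φ0.comp ψ) _)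
  obtain ⟨M', _, _, _, _, _, _, hfd, hgal, hfr, hb⟩ := exists_bc (M := M) hp hE hne
  haveI := hfd
  haveI := hgal
  set W0 := plE φ0 with hW0
  have hW0ab : Ab W0 w0 := plE_ab φ0
  have huniq : ∀ {W : Place M} {v v' : Place R}, Ab W v → Ab W v' → v = v' := fun h h' =>
    (av_of_ab h).unique (av_of_ab h')
  have hrM : Rcp M M' W0 := rcp_up hb hT0 φ0 hr
  have hnM : NSp M M' W0 := nsp_up hb φ0 hn
  -- the target
  have hfin : {W : Place M | ∃ v ∈ (V : Set (Place R)), Av' W v}.Finite :=
    above_finite (Finset.finite_toSet V)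
  set S1 : Finset (Place M) := hfin.toFinset with hS1
  have hmem : ∀ {W : Place M} {v : Place R}, v ∈ V → Ab W v → W ∈ S1 := fun hv h =>
    hfin.mem_toFinset.2 ⟨_, hv, av_of_ab h⟩
  choose δ hδ hopen hopen' using fun v : Place R => Hey.H63.loc_open E v
  choose δ' hδ' _ hopenM using fun W : Place M => Hey.H63.loc_open M' W
  choose gv hgv0 hgv1 hgv2 using fun v : Place R => exists_small v (hδ v)
  choose be hbe using fun W : Place M => below_av (k := R) W
  have hbe' : ∀ {W : Place M} {v : Place R}, Ab W v → be W = v := fun h =>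
    (hbe _).unique (av_of_ab h)
  let τ : Place M → M := fun W => if ∃ (v : Place R) (hv : v ∈ V), W = plE (φ v hv) then
    algebraMap R M x else 1
  have hxM : algebraMap R M x ≠ 0 := (_root_.map_ne_zero _).2 hx
  have hτ0 : ∀ W, τ W ≠ 0 := by
    intro W
    change (if _ then _ else _) ≠ _
    split_ifs
    · exact hxM
    · exact one_ne_zero
  have hτ1 : ∀ v hv, τ (plE (φ v hv)) = algebraMap R M x := fun v hv => if_pos ⟨v, hv, rfl⟩
  have hτ2 : ∀ W, (∀ v hv, W ≠ plE (φ v hv)) → τ W = 1 := fun W hW =>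
    if_neg fun ⟨v, hv, h⟩ => hW v hv h
  obtain ⟨t, ht0, ht⟩ := weakM S1 τ (fun W _ => hτ0 W)
    (fun W => min (δ' W) (W.abv (algebraMap R M (gv (be W))))) fun W _ =>
      lt_min (hδ' W) (W.abv.pos ((_root_.map_ne_zero _).2 (hgv0 _)))
  obtain ⟨y, hy0, hy1, hy2⟩ := hN1 M M' hfr W0 hrM hnM S1 (Finset.finite_toSet S1) (fun _ => t)
    fun _ _ => ht0
  have hNy0 : Algebra.norm R y ≠ 0 := Algebra.norm_ne_zero_iff.2 hy0
  -- away from `V`
  have hyV : ∀ v : Place R, v ≠ w0 → LocN E (x / Algebra.norm R y) v := by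
    intro v hv
    by_cases hvV : v ∈ V
    · have h1 : LocN E (Algebra.norm R (y / t)) v := by
        refine locN_norm (M' := M') (div_ne_zero hy0 ht0) fun W hW => hy1 W (hmem hvV hW) ?_
        rintro rfl
        exact hv (huniq hW hW0ab)
      have h2 : IsN R E v.comp (algebraMap R v.comp (Algebra.norm R t / x)) := by
        refine hopen v _ ?_
        have hg1 : ‖algebraMap R v.comp (gv v)‖ ≤ 1 := by
          rw [norm_alg]
          exact hgv1 v
        refine lt_trans ?_ (hgv2 v)
        rw [map_div₀, (hT v hvV).norm_eq, ← Finset.mul_prod_erase Finset.univ _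
          (Finset.mem_univ (φ v hvV)), mul_comm, mul_div_assoc]
        have h3 : ∀ ψ : M →ₐ[R] v.comp, ψ ≠ φ v hvV → ‖ψ t - 1‖ < v.abv (gv v) := by
          intro ψ hψ
          have h4 := (ht (plE ψ) (hmem hvV (plE_ab ψ))).trans_le (min_le_right _ _)
          rw [hbe' (plE_ab ψ), plE_lt, ψ.commutes, norm_alg, hτ2, div_one, map_sub,
            map_one] at h4
          · exact h4
          · intro v' hv' h5
            have h6 : v = v' := huniq (plE_ab ψ) (by rw [h5]; exact plE_ab _)
            subst h6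
            exact hψ (plE_inj h5)
        have h4 : ‖(φ v hvV) t / algebraMap R v.comp x - 1‖ < v.abv (gv v) := by
          have h5 := (ht (plE (φ v hvV)) (hmem hvV (plE_ab _))).trans_le (min_le_right _ _)
          rw [hbe' (plE_ab _), plE_lt, AlgHom.commutes, norm_alg, hτ1, map_sub,
            map_one, map_div₀, AlgHom.commutes] at h5
          exact h5
        -- products of elements close to one
        have hmul : ∀ a b : v.comp, ‖a - 1‖ < v.abv (gv v) → ‖b - 1‖ < v.abv (gv v) →
            ‖a * b - 1‖ < v.abv (gv v) := by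
          intro a b ha hb'
          have ha1 : ‖a‖ ≤ 1 := by
            have e : a = (a - 1) + 1 := by ring
            rw [e]
            refine (IsUltrametricDist.norm_add_le_max _ _).trans (max_le ?_ ?_)
            · exact ha.le.trans (hgv1 v)
            · rw [norm_one]
          have e : a * b - 1 = a * (b - 1) + (a - 1) := by ring
          rw [e]
          refine (IsUltrametricDist.norm_add_le_max _ _).trans_lt (max_lt ?_ ha)
          rw [norm_mul]
          exact (mul_le_of_le_one_left (norm_nonneg _) ha1).trans_lt hb'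
        have hprod : ∀ s : Finset (M →ₐ[R] v.comp), (∀ ψ ∈ s, ψ ≠ φ v hvV) →
            ‖∏ ψ ∈ s, ψ t - 1‖ < v.abv (gv v) := by
          intro s
          induction s using Finset.induction_on with
          | empty =>
            intro _
            rw [Finset.prod_empty, sub_self, norm_zero]
            exact v.abv.pos (hgv0 v)
          | insert ψ s hψ ih =>
            intro hs
            rw [Finset.prod_insert hψ]
            exact hmul _ _ (h3 ψ (hs ψ (Finset.mem_insert_self _ _)))
              (ih fun a ha => hs a (Finset.mem_insert_of_mem ha))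
        exact hmul _ _ (hprod _ fun ψ hψ => Finset.ne_of_mem_erase hψ) h4
      have h3 : LocN E (Algebra.norm R t / x) v := h2
      have h4 := (h1.mul h3).inv
      have h5 : (Algebra.norm R (y / t) * (Algebra.norm R t / x))⁻¹ = x / Algebra.norm R y := by
        have h6 : Algebra.norm R t ≠ 0 := Algebra.norm_ne_zero_iff.2 ht0
        rw [norm_div' _ ht0]
        field_simp
      rwa [h5] at h4
    · refine (hV v hvV).div (locN_norm (M' := M') hy0 fun W hW => hy2 W ?_ ?_)
      · intro h
        obtain ⟨v', hv', h'⟩ := hfin.mem_toFinset.1 h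
        exact hvV (by rw [(av_of_ab hW).unique h']; exact hv')
      · rintro rfl
        exact hv (huniq hW hW0ab)
  have hall : ∀ v : Place R, LocN E (x / Algebra.norm R y) v := by
    intro v
    by_cases hv : v = w0
    · subst hv
      exact hr _ hyV
    · exact hyV v hv
  -- `y` is a local norm at the other places
  have hloc1 : ∀ W : Place M, (∀ v hv, W ≠ plE (φ v hv)) → W ≠ W0 → LocN M' y W := by
    intro W hW hWW
    by_cases h : W ∈ S1
    · have h1 := hy1 W h hWW
      have h2 : LocN M' t W := by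
        refine hopenM W t ?_
        have h3 := (ht W h).trans_le (min_le_left _ _)
        rwa [hτ2 W hW, div_one] at h3
      have h3 := h1.mul h2
      rwa [div_mul_cancel₀ _ ht0] at h3
    · exact hy2 W h hWW
  have hloc : ∀ W : Place M, (∀ v hv, W ≠ plE (φ v hv)) → LocN M' y W := by
    intro W hW
    by_cases hWW : W = W0
    · have hw0 : w0 ∉ V := fun h => hW w0 h (by rw [hWW, hW0, hφ0 h])
      rw [hWW]
      refine locN_last hb hT0 φ0 hy0 ?_ fun W' hW' hne' => hloc1 W' ?_ hne'
      · have h1 := (hall w0).inv.mul (hV w0 hw0)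
        have e : (x / Algebra.norm R y)⁻¹ * x = Algebra.norm R y := by
          field_simp
        rwa [e] at h1
      · intro v hv h
        exact hw0 (by rw [huniq hW' (by rw [h]; exact plE_ab _)]; exact hv)
    · exact hloc1 W hW hWW
  obtain ⟨e, he⟩ := approx_norm (E := M') S (fun _ => y) (fun W hW => ⟨hy0, hloc W fun v hv h =>
    hS v hv (h ▸ hW)⟩) (fun W => min (W.abv (g W)) 1) fun W hW =>
      lt_min (W.abv.pos (hg W hW)) one_pos
  rcases S.eq_empty_or_nonempty with hemp | ⟨W1, hW1⟩
  · refine ⟨y, hy0, hall, fun W hW => ?_⟩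
    rw [hemp] at hW
    simp at hW
  have he0 : Algebra.norm M e ≠ 0 := by
    intro h0
    have h5 := (he W1 hW1).trans_le (min_le_right _ _)
    rw [h0, div_zero, zero_sub, AbsoluteValue.map_neg, map_one] at h5
    exact lt_irrefl _ h5
  refine ⟨y / Algebra.norm M e, div_ne_zero hy0 he0, fun v => ?_, fun W hW =>
    (he W hW).trans_le (min_le_left _ _)⟩
  have h1 : Algebra.norm R (Algebra.norm M e) = Algebra.norm R (Algebra.norm E e) := by
    rw [Algebra.norm_norm, Algebra.norm_norm]
  have h2 : Algebra.norm R (Algebra.norm M e) ≠ 0 := Algebra.norm_ne_zero_iff.2 he0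
  have h3 : x / Algebra.norm R (y / Algebra.norm M e) =
      x / Algebra.norm R y * Algebra.norm R (Algebra.norm E e) := by
    rw [norm_div' _ he0, ← h1]
    field_simp
  rw [h3]
  exact (hall v).mul (Hey.H63.LocN.of_norm _ v)

end Vale.Agent.P011.H74.Odd
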