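import Vale.Agent.P011.H74.Odd.Emb
import Vale.Agent.P011.H699.Odd.NearL

/-!
# Integrality at a set of places of a function field

`OT T` = the elements of the function field `K` which are integral at the places of `T`.  An
element `a` of a finite extension `R` is integral over `OT T` if and only if it is integral at all
the places above `T`.
-/

open Polynomial Module

set_option linter.unusedSectionVars false
set_option linter.style.haveILetI false

namespace Vale.Agent.P011.H74.Odd

open Vale.Agent.P011.H738 Vale.Agent.P011.H271 Vale.Agent.P011.H271.S3 Vale.Agent.P011.H973.PF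
open Vale.Agent.P011.H511.FF
open Vale.Agent.P011.H699.Odd (Near Itg abv_itg)

/-- The elements which are integral at the places of `T`. -/
def OT {K : Type} [Field K] (T : Set (Place K)) : Subring K where
  carrier := {x | ∀ V ∈ T, V.abv x ≤ 1}
  mul_mem' := fun {a b} ha hb V hV => by
    rw [map_mul]
    exact mul_le_one₀ (ha V hV) (V.abv.nonneg _) (hb V hV)
  one_mem' := fun V _ => by rw [map_one]
  add_mem' := fun {a b} ha hb V hV => (V.nonarch a b).trans (max_le (ha V hV) (hb V hV))
  zero_mem' := fun V _ => by rw [map_zero]; exact zero_le_one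
  neg_mem' := fun {a} ha V hV => by rw [AbsoluteValue.map_neg]; exact ha V hV

theorem mem_OT {K : Type} [Field K] {T : Set (Place K)} {x : K} :
    x ∈ OT T ↔ ∀ V ∈ T, V.abv x ≤ 1 := Iff.rfl

/-- The valuation ring of a place. -/
def vO {K : Type} [Field K] (V : Place K) : Subring K := OT {V}

theorem mem_vO {K : Type} [Field K] {V : Place K} {x : K} : x ∈ vO V ↔ V.abv x ≤ 1 := by
  refine ⟨fun h => h V rfl, fun h W hW => ?_⟩
  rw [Set.mem_singleton_iff] at hW
  rw [hW]
  exact h

variable {K : Type} [Field K] [GFF K] {R : Type} [Field R] [Algebra K R] [FiniteDimensional K R]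

/-- An element which is integral above the place `V` has a minimal polynomial which is integral
at `V`. -/
theorem minpoly_int {V : Place K} {a : R} (h : ∀ W : Place R, Ab W V → W.abv a ≤ 1) (i : ℕ) :
    V.abv ((minpoly K a).coeff i) ≤ 1 := by
  haveI : GFF R := Hey.H63.gff_of_finite (k := K)
  let Ω := AlgebraicClosure R
  let N := IntermediateField.normalClosure K R Ω
  haveI : GFF N := Hey.H63.gff_of_finite (k := K)
  obtain ⟨W', hW'⟩ := exists_above_ab (K := N) V
  let ι : R →ₐ[K] N := IsScalarTower.toAlgHom K R N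
  have hint : IsIntegral K a := Algebra.IsIntegral.isIntegral a
  have hmin : minpoly K (ι a) = minpoly K a := minpoly.algHom_eq ι ι.injective a
  have hsp : ((minpoly K a).map (algebraMap K N)).Splits := by
    rw [← hmin]
    exact Normal.splits inferInstance (ι a)
  have hroot : ∀ r ∈ ((minpoly K a).map (algebraMap K N)).roots, W'.abv r ≤ 1 := by
    intro r hr
    have h1 : aeval r (minpoly K (ι a)) = 0 := by
      rw [hmin]
      exact (mem_aroots.mp hr).2
    obtain ⟨σ, hσ⟩ := minpoly.exists_algEquiv_of_root' (K := K) (L := N)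
      (Algebra.IsAlgebraic.isAlgebraic (ι a)) h1
    let τ : R →ₐ[K] N := (σ : N →ₐ[K] N).comp ι
    letI : Algebra R N := τ.toRingHom.toAlgebra
    haveI : IsScalarTower K R N := IsScalarTower.of_algebraMap_eq fun x => (τ.commutes x).symm
    haveI : FiniteDimensional R N := Module.Finite.of_restrictScalars_finite K R N
    obtain ⟨W, hW⟩ := exists_below_ab (k := R) W'
    obtain ⟨V', hV'⟩ := exists_below_ab (k := K) W
    have h2 : V' = V := (av_of_ab (ab_trans hW hV')).unique (av_of_ab hW')
    subst h2
    have h3 := hW.le_one (h W hV')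
    have h4 : algebraMap R N a = r := hσ
    rwa [h4] at h3
  have hlift : (minpoly K a).map (algebraMap K N) ∈ lifts (vO W').subtype := by
    rw [hsp.eq_prod_roots_of_monic ((minpoly.monic hint).map _)]
    refine Subsemiring.multiset_prod_mem _ _ fun q hq => ?_
    obtain ⟨r, hr, rfl⟩ := Multiset.mem_map.1 hq
    refine ⟨X - C ⟨r, mem_vO.2 (hroot r hr)⟩, ?_⟩
    rw [coe_mapRingHom, Polynomial.map_sub, map_X, map_C]
    rfl
  rw [lifts_iff_coeff_lifts] at hlift
  obtain ⟨y, hy⟩ := hlift i
  rw [coeff_map] at hy
  have h5 := mem_vO.1 y.2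
  change (y : N) = _ at hy
  rw [hy] at h5
  exact hW'.le_one_iff.1 h5

/-- Integrality over `OT T` is integrality at the places above `T`. -/
theorem itg_iff {T : Set (Place K)} (a : R) :
    Itg (OT T) R a ↔ ∀ V ∈ T, ∀ W : Place R, Ab W V → W.abv a ≤ 1 := by
  constructor
  · intro h V hV W hW
    exact abv_itg W.abv W.nonarch (fun c (hc : c ∈ OT T) => hW.le_one (hc V hV)) h
  · intro h
    have hint : IsIntegral K a := Algebra.IsIntegral.isIntegral a
    have h1 : (↑(minpoly K a).coeffs : Set K) ⊆ OT T := by
      intro c hc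
      rw [Finset.mem_coe, mem_coeffs_iff] at hc
      obtain ⟨i, -, rfl⟩ := hc
      exact fun V hV => minpoly_int (h V hV) i
    refine ⟨(minpoly K a).toSubring (OT T) h1, ?_, ?_⟩
    · rw [monic_toSubring]
      exact minpoly.monic hint
    · rw [← eval₂_map, map_toSubring, ← aeval_def]
      exact minpoly.aeval K a

/-- Nearness to one. -/
theorem near_iff {T : Set (Place K)} {c : K} (hc : c ≠ 0) (x : R) :
    Near (OT T) R c x ↔ ∀ V ∈ T, ∀ W : Place R, Ab W V →
      W.abv (x - 1) ≤ W.abv (algebraMap K R c) := by
  have hc' : algebraMap K R c ≠ 0 := (_root_.map_ne_zero _).2 hc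
  constructor
  · rintro ⟨a, ha, rfl⟩ V hV W hW
    rw [add_sub_cancel_left, map_mul]
    exact mul_le_of_le_one_right (W.abv.nonneg _) ((itg_iff a).1 ha V hV W hW)
  · intro h
    refine ⟨(x - 1) / algebraMap K R c, (itg_iff _).2 fun V hV W hW => ?_, ?_⟩
    · rw [map_div₀]
      exact div_le_one_of_le₀ (h V hV W hW) (W.abv.nonneg _)
    · rw [mul_div_cancel₀ _ hc']
      ring

end Vale.Agent.P011.H74.Odd
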