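import Vale.Agent.P011.H74.Odd.TwoNorm
import Vale.Agent.P011.H74.Odd.IntT
import Vale.Agent.P011.H327.SplitHomF

/-!
# The two-field norm lemma in the letters of the frame, function fields
-/

open Polynomial Module

set_option linter.unusedSectionVars false
set_option linter.style.haveILetI false

namespace Vale.Agent.P011.H74.Odd

open Vale.Agent.P011.H738 Vale.Agent.P011.H271 Vale.Agent.P011.H271.S3 Vale.Agent.P011.H973.PF
open Vale.Agent.P011.H511.FF
open Vale.Agent.P011.H699.Odd (Near TN)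

/-- `P` splits over the completions at the places of `pl j`, and its irreducible factors are
separable. -/
def SpF {K J : Type} [Field K] (pl : J → Set (Place K)) (j : J) (P : K[X]) : Prop :=
  (∀ V ∈ pl j, (P.map (algebraMap K V.comp)).Splits) ∧
    ∀ q : K[X], Irreducible q → q ∣ P → q.Separable

theorem SpF.mul {K J : Type} [Field K] {pl : J → Set (Place K)} {j : J} {P Q : K[X]}
    (hP : SpF pl j P) (hQ : SpF pl j Q) : SpF pl j (P * Q) := by
  refine ⟨fun V hV => ?_, fun q hq h => ?_⟩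
  · rw [Polynomial.map_mul]
    exact (hP.1 V hV).mul (hQ.1 V hV)
  · rcases hq.prime.dvd_or_dvd h with h | h
    · exact hP.2 q hq h
    · exact hQ.2 q hq h

/-- The minimal polynomial of a separable element. -/
theorem SpF.of_minpoly {K J D : Type} [Field K] [DivisionRing D] [Algebra K D]
    [FiniteDimensional K D] {pl : J → Set (Place K)} {j : J} {x : D}
    (h : (minpoly K x).Separable)
    (hs : ∀ V ∈ pl j, ((minpoly K x).map (algebraMap K V.comp)).Splits) :
    SpF pl j (minpoly K x) :=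
  ⟨hs, fun _ _ hq => h.of_dvd hq⟩

theorem SpF.mono {K J J' : Type} [Field K] {pl : J → Set (Place K)} {pl' : J' → Set (Place K)}
    {j : J} {j' : J'} {P : K[X]} (h : pl' j' ⊆ pl j) (hP : SpF pl j P) : SpF pl' j' P :=
  ⟨fun V hV => hP.1 V (h hV), hP.2⟩

/-- The conclusion of the two norms lemma: radii `b` for the element of `R`, radii `c` for the
element of `R'`. -/
def TwoF (R R' : Type) [Field R] [Field R'] [Algebra R R'] (A : Finset (Place R))
    (b c : Place R → R) : Prop :=
  ∀ x : R, x ≠ 0 → (∀ v ∈ A, v.abv (x - 1) < v.abv (b v)) →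
    ∃ V : Finset (Place R), Disjoint V A ∧
      ∀ (M : Type) [Field M] [Algebra R M] [FiniteDimensional R M] [Algebra.IsSeparable R M],
      (∀ v ∈ V, TS R M v) → ∀ g : Place R → R, (∀ v ∈ A, g v ≠ 0) →
      ∃ (x1 : R') (y : M), y ≠ 0 ∧ x = Algebra.norm R x1 * Algebra.norm R y ∧
        (∀ v ∈ A, ∀ w : Place R', Ab w v → w.abv (x1 - 1) < w.abv (algebraMap R R' (c v))) ∧
        ∀ v ∈ A, ∀ w : Place M, Ab w v → w.abv (y - 1) < w.abv (algebraMap R M (g v))

theorem twoF {p : ℕ} (hp : p.Prime) (hN1 : N1 p) (hN2 : N2 p) {R R' : Type} [Field R]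
    [GFF R] [Field R'] [Algebra R R'] [FiniteDimensional R R'] [IsGalois R R']
    (hpR : (p : R) ≠ 0) (hdeg : finrank R R' = p) (A : Finset (Place R)) (c : Place R → R)
    (hc : ∀ v ∈ A, c v ≠ 0 ∧ v.abv (c v) ≤ 1) : TwoF R R' A c c := by
  classical
  obtain ⟨v0, hv0, h⟩ := two_norm hp hN1 hN2 hpR hdeg A
  intro x hx hxA
  obtain ⟨V, hV, h1⟩ := h c hc x hx hxA
  refine ⟨insert v0 V, Finset.disjoint_insert_left.2 ⟨hv0, hV⟩, fun M _ _ _ _ hTS g hg => ?_⟩
  obtain ⟨x1, y, hy, hxy, h2, h3⟩ := h1 M (fun v hv => hTS v (Finset.mem_insert.2 hv)) ∅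
    (Finset.disjoint_empty_right _) g (fun v hv => hg v (by simpa using hv))
  exact ⟨x1, y, hy, hxy, h2, fun v hv => h3 v (Or.inl hv)⟩

/-- **The two-field norm lemma in the letters of the frame.** -/
theorem tn_of_twoF {K : Type} [Field K] [GFF K] {T : Set (Place K)} (hT : T.Finite) {J : Type}
    (pl : J → Set (Place K)) (hJ : ∀ B : Finset (Place K), (∀ V ∈ B, V ∉ T) → ∃ j, ↑B ⊆ pl j)
    {R R' : Type} [Field R] [Field R'] [Algebra K R] [Algebra R R'] [Algebra K R']
    [IsScalarTower K R R'] [FiniteDimensional K R] [FiniteDimensional R R'] {c b c' : K}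
    (hc0 : c ≠ 0) (hcb : ∀ V ∈ T, V.abv c < V.abv b) (hc'0 : c' ≠ 0)
    (h2 : ∀ A : Finset (Place R), (∀ w ∈ A, ∃ V ∈ T, Ab w V) →
      TwoF R R' A (fun _ => algebraMap K R b) fun _ => algebraMap K R c') :
    TN (OT T) (SpF pl) R R' c c' := by
  classical
  haveI : GFF R := Hey.H63.gff_of_finite (k := K)
  haveI : FiniteDimensional K R' := FiniteDimensional.trans K R R'
  intro x hx hnear
  have hA0 : {w : Place R | ∃ V ∈ T, Av' w V}.Finite := above_finite hT
  set A := hA0.toFinset with hA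
  have hmemA : ∀ {w : Place R}, w ∈ A ↔ ∃ V ∈ T, Ab w V := by
    intro w
    rw [hA, Set.Finite.mem_toFinset]
    exact ⟨fun ⟨V, hV, h⟩ => ⟨V, hV, ab_of_av h⟩, fun ⟨V, hV, h⟩ => ⟨V, hV, av_of_ab h⟩⟩
  rw [near_iff hc0] at hnear
  obtain ⟨V, hVA, h4⟩ := h2 A (fun w hw => hmemA.1 hw) x hx (by
    intro w hw
    obtain ⟨W, hW, hwW⟩ := hmemA.1 hw
    exact (hnear W hW w hwW).trans_lt ((ab_lt_iff hwW _ _).2 (hcb W hW)))
  choose bel hbel using fun w : Place R => exists_below_ab (k := K) w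
  obtain ⟨j, hj⟩ := hJ (V.image bel) (by
    intro W hW hWT
    rw [Finset.mem_image] at hW
    obtain ⟨v, hv, rfl⟩ := hW
    exact (Finset.disjoint_left.1 hVA) hv (hmemA.2 ⟨_, hWT, hbel v⟩))
  refine ⟨j, ?_⟩
  intro M _ _ _ _ _ P hP hsf d hd
  haveI : FiniteDimensional K M := FiniteDimensional.trans K R M
  have hS : IntermediateField.adjoin R ((P.map (algebraMap K R)).rootSet M) = ⊤ :=
    IntermediateField.adjoin_eq_top_of_algebra R _ hsf.adjoin_rootSet
  have hint : ∀ s : M, IsIntegral K s := fun s => Algebra.IsIntegral.isIntegral s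
  have hroot : ∀ s ∈ (P.map (algebraMap K R)).rootSet M, minpoly K s ∣ P := by
    intro s hs
    have h5 := (mem_rootSet.1 hs).2
    rw [aeval_map_algebraMap] at h5
    exact minpoly.dvd K s h5
  have hsep : Algebra.IsSeparable R M := by
    rw [← IntermediateField.isSeparable_top, ← hS,
      IntermediateField.isSeparable_adjoin_iff_isSeparable]
    intro s hs
    have h5 : (minpoly K s).Separable :=
      hP.2 _ (minpoly.irreducible (hint s)) (hroot s hs)
    exact (h5.map (f := algebraMap K R)).of_dvd (minpoly.dvd_map_of_isScalarTower K R s)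
  have hTS : ∀ v ∈ V, TS R M v := by
    intro v hv
    have hv1 : bel v ∈ pl j := hj (by
      rw [Finset.coe_image]
      exact ⟨v, hv, rfl⟩)
    have h5 := H327.SplitHom.exists_algHom_place (hbel v)
      ((P.map (algebraMap K R)).rootSet M) hS (by
        intro s hs
        refine ⟨hint s, (hP.1 _ hv1).of_dvd ?_ (Polynomial.map_dvd _ (hroot s hs))⟩
        have h6 := (mem_rootSet.1 hs).1
        refine (Polynomial.map_ne_zero_iff (algebraMap K _).injective).2 fun h7 => h6 ?_
        rw [h7, Polynomial.map_zero])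
    exact h5.1
  obtain ⟨x1, y, hy, hxy, h8, h9⟩ := h4 M hTS (fun _ => algebraMap K R d)
    (fun v _ => (_root_.map_ne_zero _).2 hd)
  have hx1 : x1 ≠ 0 := by
    rintro rfl
    rw [Algebra.norm_zero, zero_mul] at hxy
    exact hx hxy
  haveI : GFF R' := Hey.H63.gff_of_finite (k := K)
  haveI : GFF M := Hey.H63.gff_of_finite (k := K)
  refine ⟨x1, y, hx1, hy, hxy, ?_, ?_⟩
  · rw [near_iff hc'0]
    intro W hW w hw
    obtain ⟨u, hu⟩ := exists_below_ab (k := R) w
    obtain ⟨W', hW'⟩ := exists_below_ab (k := K) u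
    have h10 : W' = W := (av_of_ab (ab_trans hu hW')).unique (av_of_ab hw)
    subst h10
    have h11 := h8 u (hmemA.2 ⟨W', hW, hW'⟩) w hu
    rw [← IsScalarTower.algebraMap_apply K R R'] at h11
    exact h11.le
  · rw [near_iff hd]
    intro W hW w hw
    obtain ⟨u, hu⟩ := exists_below_ab (k := R) w
    obtain ⟨W', hW'⟩ := exists_below_ab (k := K) u
    have h10 : W' = W := (av_of_ab (ab_trans hu hW')).unique (av_of_ab hw)
    subst h10
    have h11 := h9 u (hmemA.2 ⟨W', hW, hW'⟩) w hu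
    rw [← IsScalarTower.algebraMap_apply K R M] at h11
    exact h11.le

/-- **(TN), function fields.**  `R' / R` Galois of prime degree `p`, different from the
characteristic, `q` is small at `T`. -/
theorem tn_ff {K : Type} [Field K] [GFF K] {T : Set (Place K)} (hT : T.Finite) {J : Type}
    (pl : J → Set (Place K)) (hJ : ∀ B : Finset (Place K), (∀ V ∈ B, V ∉ T) → ∃ j, ↑B ⊆ pl j)
    {p : ℕ} (hp : p.Prime) (hN1 : N1 p) (hN2 : N2 p) (hpK : (p : K) ≠ 0) {R R' : Type} [Field R]
    [Field R'] [Algebra K R] [Algebra R R'] [Algebra K R'] [IsScalarTower K R R']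
    [FiniteDimensional K R] [IsGalois R R'] (hdeg : finrank R R' = p) {q c' : K} (hq0 : q ≠ 0)
    (hq : ∀ V ∈ T, V.abv q < 1) (hc0 : c' ≠ 0) (hc' : c' ∈ OT T) :
    TN (OT T) (SpF pl) R R' (q * c') c' := by
  haveI : GFF R := Hey.H63.gff_of_finite (k := K)
  haveI : FiniteDimensional R R' := Module.finite_of_finrank_pos (by rw [hdeg]; exact hp.pos)
  have hpR : (p : R) ≠ 0 := by
    rw [← map_natCast (algebraMap K R)]
    exact (_root_.map_ne_zero _).2 hpK
  refine tn_of_twoF hT pl hJ (mul_ne_zero hq0 hc0) (fun V hV => ?_) hc0 fun A hA =>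
    twoF hp hN1 hN2 hpR hdeg A _ fun w hw => ⟨(_root_.map_ne_zero _).2 hc0, ?_⟩
  · rw [map_mul]
    exact mul_lt_of_lt_one_left (V.abv.pos hc0) (hq V hV)
  · obtain ⟨V, hV, h⟩ := hA w hw
    exact h.le_one (hc' V hV)

end Vale.Agent.P011.H74.Odd
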