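import Vale.Agent.P011.H74.Odd.IntT
import Vale.Agent.P011.H704.HQ.Main
import Vale.Agent.P011.H496.Spl.SplG

/-!
# The absolute values of the division algebra over a function field
-/

open Polynomial Module

set_option linter.unusedSectionVars false
set_option linter.style.haveILetI false

namespace Vale.Agent.P011.H74.Odd

open Vale.Agent.P011.H738 Vale.Agent.P011.H271 Vale.Agent.P011.H271.S3 Vale.Agent.P011.H973.PF
open Vale.Agent.P011.H511.FF Vale.Agent.P011.H698 Vale.Agent.P011.H704.HQ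
open Vale.Agent.P011.H271.StarF
open Vale.Agent.P011.H699.Odd (Near Itg abv_itg Fa)

variable {k K D Ω : Type} [Field k] [Field K] [StarRing K] [DivisionRing D] [StarRing D]
  [Algebra k K] [Algebra k D] [Algebra K D] [IsScalarTower k K D] [StarModule K D] {n N : ℕ}
  [Field Ω] [Algebra K Ω]

/-- The absolute value composed with the involution. -/
noncomputable def sAbv (A : AbsoluteValue D ℝ) : AbsoluteValue D ℝ where
  toFun x := A (star x)
  map_mul' x y := by rw [star_mul, map_mul, mul_comm]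
  nonneg' x := A.nonneg _
  eq_zero' x := by rw [A.eq_zero, star_eq_zero]
  add_le' x y := by rw [star_add]; exact A.add_le _ _

theorem sAbv_apply (A : AbsoluteValue D ℝ) (x : D) : sAbv A x = A (star x) := rfl

/-- The places of `K` above the places of `T`. -/
def abT (K : Type) {k : Type} [Field k] [Field K] [Algebra k K] (T : Set (Place k)) :
    Set (Place K) := {V | ∃ v ∈ T, Ab V v}

omit [StarRing K] in
theorem abT_finite [GFF k] [GFF K] {T : Set (Place k)} (hT : T.Finite) : (abT K T).Finite :=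
  (above_finite (K := K) hT).subset fun _ ⟨v, hv, h⟩ => ⟨v, hv, av_of_ab h⟩

/-- **The absolute values above the places of division type.** -/
structure NuF (k K D : Type) [Field k] [Field K] [DivisionRing D] [StarRing D]
    [Algebra k K] [Algebra k D] [Algebra K D] {N : ℕ} (B : Basis (Fin N) k D)
    {ι : Type} (ν : ι → AbsoluteValue D ℝ) : Prop where
  fa : Fa ν
  le : ∀ ε : ℝ, 0 < ε → ∃ δ : ℝ, 0 < δ ∧ ∀ x : D, (∀ v ∈ Adiv k K D, Sm B v δ x) → ∀ i, ν i x < ε
  ge : ∀ ε : ℝ, 0 < ε → ∃ δ : ℝ, 0 < δ ∧ ∀ x : D, (∀ i, ν i x < δ) →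
    ∀ v ∈ Adiv k K D, Sm B v ε x
  alg : ∀ i, ∃ v ∈ Adiv k K D, ∀ c : k, ν i (algebraMap k D c) = v.abv c
  pl : ∀ i, ∃ V ∈ abT K (Adiv k K D), ∀ a b : K,
    V.abv a ≤ V.abv b ↔ ν i (algebraMap K D a) ≤ ν i (algebraMap K D b)

/-- The involution is continuous. -/
theorem star_sm [GFF k] (hst : ∀ (c : k) (x : D), star (c • x) = c • star x)
    (B : Basis (Fin N) k D) (T : Set (Place k)) {η : ℝ} (hη : 0 < η) :
    ∃ η' : ℝ, 0 < η' ∧ ∀ x : D, (∀ v ∈ T, Sm B v η' x) → ∀ v ∈ T, Sm B v η (star x) := by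
  obtain ⟨η', h1, h2, h3⟩ := H496.Spl.nr_mul hst B T hη
  refine ⟨η', h1, fun x hx v hv => ?_⟩
  have h4 : Nr B T η' (x + 1) := fun v hv => by
    rw [add_sub_cancel_right]
    exact hx v hv
  have h5 := (h3 _ _ h4 h4).2 v hv
  rwa [star_add, star_one, add_sub_cancel_right] at h5

theorem exists_nuF [GFF k] (hA : Anis k K D n) (hn : 1 < n)
    (f : D →ₐ[K] Matrix (Fin n) (Fin n) Ω) (B : Basis (Fin N) k D) :
    ∃ (ι : Type) (_ : Finite ι) (ν : ι → AbsoluteValue D ℝ), NuF k K D B ν := by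
  classical
  have hst : ∀ (c : k) (x : D), star (c • x) = c • star x := H519.star_smul_of_anis hA
  have hq := H519.quad hA.fixed hA.star_ne
  haveI : FiniteDimensional k K := hq.1
  haveI : GFF K := Hey.H63.gff_of_finite (k := k)
  have hfin : (Adiv k K D).Finite := adiv_finite hA hn
  haveI : Finite {v // v ∈ Adiv k K D} := hfin
  choose μ hμ using fun v : {v // v ∈ Adiv k K D} => exists_dnu hA (by omega) f B v.2
  have hstalg : ∀ c : k, star (algebraMap k D c) = algebraMap k D c := fun c => by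
    rw [Algebra.algebraMap_eq_smul_one, hst, star_one]
  let ν : {v // v ∈ Adiv k K D} × Bool → AbsoluteValue D ℝ := fun i =>
    if i.2 then sAbv (μ i.1) else μ i.1
  have hν0 : ∀ v, ν (v, false) = μ v := fun _ => rfl
  have hν1 : ∀ v, ν (v, true) = sAbv (μ v) := fun _ => rfl
  have hult : ∀ i x y, ν i (x + y) ≤ max (ν i x) (ν i y) := by
    rintro ⟨v, _ | _⟩ x y
    · exact (hμ v).ultra x y
    · rw [hν1, sAbv_apply, sAbv_apply, sAbv_apply, star_add]
      exact (hμ v).ultra _ _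
  have halg : ∀ (i : {v // v ∈ Adiv k K D} × Bool) (c : k),
      ν i (algebraMap k D c) = (i.1 : Place k).abv c := by
    rintro ⟨v, _ | _⟩ c
    · exact (hμ v).alg c
    · rw [hν1, sAbv_apply, hstalg]
      exact (hμ v).alg c
  choose C hC hCb using fun v => (hμ v).coord
  choose C' hC' hCb' using fun v => (hμ v).upper
  refine ⟨_, inferInstance, ν, ⟨hult, ?_⟩, ?_, ?_, ?_, ?_⟩
  · rintro ⟨v, _ | _⟩
    · exact ⟨(v, true), fun x => rfl⟩
    · refine ⟨(v, false), fun x => ?_⟩
      rw [hν0, hν1, sAbv_apply, star_star]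
  · intro ε hε
    obtain ⟨δ1, hδ1, h1⟩ := exists_pos_le (fun v => ε / (2 * C' v)) fun v => by
      have := hC' v
      positivity
    obtain ⟨δ2, hδ2, h2⟩ := star_sm hst B (Adiv k K D) hδ1
    have key : ∀ (v : {v // v ∈ Adiv k K D}) (x : D), Sm B (v : Place k) δ1 x → μ v x < ε := by
      intro v x hx
      refine (hCb' v x δ1 hδ1 fun i => hx i).trans_lt ?_
      have h3 := h1 v
      have h4 := hC' v
      rw [le_div_iff₀ (by positivity)] at h3
      nlinarith
    refine ⟨min δ1 δ2, lt_min hδ1 hδ2, fun x hx => ?_⟩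
    rintro ⟨v, _ | _⟩
    · exact key v x ((hx v v.2).mono (min_le_left _ _))
    · rw [hν1, sAbv_apply]
      exact key v _ (h2 x (fun w hw => (hx w hw).mono (min_le_right _ _)) v v.2)
  · intro ε hε
    obtain ⟨δ, hδ, h1⟩ := exists_pos_le (fun v => ε / (2 * C v)) fun v => by
      have := hC v
      positivity
    refine ⟨δ, hδ, fun x hx v hv i => ?_⟩
    have h2 := hx (⟨v, hv⟩, false)
    have h3 := hx (⟨v, hv⟩, true)
    rw [hν0] at h2
    rw [hν1, sAbv_apply] at h3
    refine (hCb ⟨v, hv⟩ x i).trans_lt ?_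
    have h4 := h1 ⟨v, hv⟩
    have h5 := hC ⟨v, hv⟩
    rw [le_div_iff₀ (by positivity)] at h4
    have h6 : C ⟨v, hv⟩ * (μ ⟨v, hv⟩ x + μ ⟨v, hv⟩ (star x)) < C ⟨v, hv⟩ * (δ + δ) :=
      mul_lt_mul_of_pos_left (add_lt_add h2 h3) h5
    linarith
  · rintro ⟨v, b⟩
    exact ⟨v, v.2, fun c => halg _ c⟩
  · rintro i
    obtain ⟨c, hc⟩ := (i.1 : Place k).normalized.2.1
    have h1 := H704.HQ.exists_place (k := k) (ν i) (hult i) (IsScalarTower.toAlgHom k K D)
      ⟨algebraMap k K c, by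
        change 1 < ν i (algebraMap K D (algebraMap k K c))
        rw [← IsScalarTower.algebraMap_apply, halg, hc]
        exact one_lt_qq' _⟩
    obtain ⟨V, hV⟩ := h1
    refine ⟨V, ⟨i.1, i.1.2, ab_of_av fun x => ?_⟩, hV⟩
    have h2 := hV (algebraMap k K x) 1
    rw [map_one, map_one, map_one] at h2
    rw [h2]
    change ν i (algebraMap K D (algebraMap k K x)) ≤ 1 ↔ _
    rw [← IsScalarTower.algebraMap_apply, halg]

end Vale.Agent.P011.H74.Odd
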