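import Vale.Agent.P011.H74.Odd.NuF
import Vale.Agent.P011.H465.NrdCont

/-!
# The reduced norm is continuous at the places of a function field
-/

open Polynomial Module

set_option linter.unusedSectionVars false
set_option linter.style.haveILetI false

namespace Vale.Agent.P011.H74.Odd

open Vale.Agent.P011.H738 Vale.Agent.P011.H271 Vale.Agent.P011.H271.S3 Vale.Agent.P011.H973.PF
open Vale.Agent.P011.H511.FF Vale.Agent.P011.H698 Vale.Agent.P011.H704.HQ
open Vale.Agent.P011.H271.StarF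

variable {k K D Ω : Type} [Field k] [Field K] [DivisionRing D]
  [Algebra k K] [Algebra k D] [Algebra K D] [IsScalarTower k K D] {n N : ℕ}
  [Field Ω] [Algebra K Ω]

/-- The coordinates with respect to a basis over `K` are continuous. -/
theorem coord_close {V : Place K} {v : Place k} (hV : Ab V v) {m : ℕ} (b : Basis (Fin m) K D)
    (B : Basis (Fin N) k D) {δ1 : ℝ} (hδ1 : 0 < δ1) :
    ∃ δ : ℝ, 0 < δ ∧ ∀ y : D, Sm B v δ y → ∀ j, V.abv (b.repr y j) < δ1 := by
  classical
  obtain ⟨c, hc, hcx⟩ := hV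
  obtain ⟨M, hM0, hM⟩ := exists_ub (Finset.univ : Finset (Fin N × Fin m))
    fun q => V.abv (b.repr (B q.1) q.2)
  have h1 : 0 < δ1 / (2 * M) := by positivity
  refine ⟨(δ1 / (2 * M)) ^ c⁻¹, Real.rpow_pos_of_pos h1 _, fun y hy j => ?_⟩
  have h2 : b.repr y j = ∑ i, algebraMap k K (B.repr y i) * b.repr (B i) j := by
    conv_lhs => rw [← B.sum_repr y]
    rw [map_sum, Finsupp.finsetSum_apply]
    refine Finset.sum_congr rfl fun i _ => ?_
    rw [← algebraMap_smul K, map_smul, Finsupp.smul_apply, smul_eq_mul]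
  rw [h2]
  refine abv_sum_lt V _ _ hδ1 fun i _ => ?_
  rw [map_mul, hcx]
  have h3 : v.abv (B.repr y i) ^ c ≤ δ1 / (2 * M) := by
    have h4 := Real.rpow_le_rpow (v.abv.nonneg _) (hy i).le hc.le
    rwa [← Real.rpow_mul h1.le, inv_mul_cancel₀ hc.ne', Real.rpow_one] at h4
  calc v.abv (B.repr y i) ^ c * V.abv (b.repr (B i) j)
      ≤ δ1 / (2 * M) * M := mul_le_mul h3 (hM (i, j) (Finset.mem_univ _)) (V.abv.nonneg _) h1.le
    _ = δ1 / 2 := by field_simp
    _ < δ1 := half_lt_self hδ1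

theorem nrd_near_one [FiniteDimensional K D] {V : Place K} {v : Place k} (hV : Ab V v)
    (f : D →ₐ[K] Matrix (Fin n) (Fin n) Ω) {R : D → K}
    (hdet : ∀ x, (f x).det = algebraMap K Ω (R x)) (B : Basis (Fin N) k D) {ε : ℝ}
    (hε : 0 < ε) : ∃ δ : ℝ, 0 < δ ∧ ∀ x : D, Sm B v δ (x - 1) → V.abv (R x - 1) < ε := by
  classical
  let b := Module.finBasis K D
  obtain ⟨S, a, h⟩ := H465.nrd_poly b f fun x => (hdet x).symm
  let P : MvPolynomial (Fin (finrank K D)) K :=
    ∑ m ∈ S, MvPolynomial.C (a m) * ∏ l, (MvPolynomial.X l) ^ (m l)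
  have hP : ∀ x, R x = MvPolynomial.eval (fun l => b.repr x l) P := by
    intro x
    rw [h x]
    simp only [P, map_sum, map_mul, map_prod, map_pow, MvPolynomial.eval_C, MvPolynomial.eval_X,
      Basis.coord_apply]
  obtain ⟨δ1, hδ1, h1⟩ := eval_close_abv V P (fun l => b.repr 1 l) hε
  obtain ⟨δ, hδ, h2⟩ := coord_close hV b B hδ1
  refine ⟨δ, hδ, fun x hx => ?_⟩
  have h3 := h1 (fun l => b.repr x l) fun j => by
    have h4 := h2 _ hx j
    rwa [map_sub, Finsupp.sub_apply] at h4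
  have h5 : R 1 = 1 := by
    apply (algebraMap K Ω).injective
    rw [← hdet, map_one, Matrix.det_one, map_one]
  rwa [← hP, ← hP, h5] at h3

/-- **The reduced norm of an element close to one is close to one.** -/
theorem nrd_near [GFF k] [GFF K] [FiniteDimensional K D] (f : D →ₐ[K] Matrix (Fin n) (Fin n) Ω)
    {R : D → K} (hdet : ∀ x, (f x).det = algebraMap K Ω (R x)) (B : Basis (Fin N) k D)
    {T : Set (Place k)} (hT : T.Finite) (r : Place K → ℝ) (hr : ∀ V, 0 < r V) :
    ∃ δ : ℝ, 0 < δ ∧ ∀ x : D, Nr B T δ x → ∀ v ∈ T, ∀ V : Place K, Ab V v →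
      V.abv (R x - 1) < r V := by
  classical
  have hfin := abT_finite (K := K) hT
  haveI : Finite (abT K T) := hfin
  choose v hvT hv using fun V : abT K T => V.2
  choose δ hδ h using fun V : abT K T => nrd_near_one (hv V) f hdet B (hr V)
  obtain ⟨δ', hδ', hle⟩ := exists_pos_le δ hδ
  refine ⟨δ', hδ', fun x hx w hw V hV => ?_⟩
  exact h ⟨V, w, hw, hV⟩ x ((hx _ (hvT _)).mono (hle _))

end Vale.Agent.P011.H74.Odd
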