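import Vale.Agent.P011.H74.Odd.TN
import Vale.Agent.P011.H74.Odd.NrdF
import Vale.Agent.P011.H74.Odd.ArF
import Vale.Agent.P011.H327.RnInst
import Vale.Agent.P011.Hey.Fin0

/-!
# The commutators of the unitary elements close to one, over function fields

The degree is odd and not divisible by the characteristic.
-/

open Polynomial Module
open scoped commutatorElement

set_option linter.unusedSectionVars false
set_option linter.style.haveILetI false

namespace Vale.Agent.P011.H74.Odd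

open Vale.Agent.P011.H738 Vale.Agent.P011.H271 Vale.Agent.P011.H271.S3 Vale.Agent.P011.H973.PF
open Vale.Agent.P011.H511.FF Vale.Agent.P011.H698 Vale.Agent.P011.H704.HQ
open Vale.Agent.P011.H271.StarF
open Vale.Agent.P011.H496.Spl (SplAt exists_split)
open Vale.Agent.P011.H699.Odd

/-- The finite nonempty sets of places outside `T`. -/
def JF {k : Type} [Field k] (T : Set (Place k)) : Type :=
  {S : Finset (Place k) // S.Nonempty ∧ ∀ v ∈ S, v ∉ T}

/-- The places above. -/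
def plF (K : Type) {k : Type} [Field k] [Field K] [Algebra k K] (T : Set (Place k)) (j : JF T) :
    Set (Place K) := abT K (j.1 : Set (Place k))

/-- An irreducible polynomial of degree not divisible by the characteristic is separable. -/
theorem sep_of_natDegree {F : Type*} [Field F] {q : F[X]} (hq : Irreducible q) (hm : q.Monic)
    (h : (q.natDegree : F) ≠ 0) : q.Separable := by
  rw [separable_iff_derivative_ne_zero hq]
  intro h0
  have h1 := congrArg (fun r : F[X] => r.coeff (q.natDegree - 1)) h0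
  simp only [coeff_derivative, coeff_zero] at h1
  have h2 : q.natDegree - 1 + 1 = q.natDegree := Nat.succ_pred_eq_of_pos hq.natDegree_pos
  rw [h2, hm.coeff_natDegree, one_mul] at h1
  apply h
  rw [← h2]
  push_cast
  exact h1

variable {k K D Ω : Type} [Field k] [Field K] [StarRing K] [DivisionRing D] [StarRing D]
  [Algebra k K] [Algebra k D] [Algebra K D] [IsScalarTower k K D] [StarModule K D] {n N : ℕ}
  [Field Ω] [Algebra K Ω]

/-- The group of the frame. -/
theorem mem_Gg_iff {f : D →ₐ[K] Matrix (Fin n) (Fin n) Ω} {R : D →* K}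
    (hdet : ∀ x, (f x).det = algebraMap K Ω (R x)) {g : Dˣ} : g ∈ Gg R ↔ g ∈ SUA f := by
  rw [mem_Gg, mem_Ug]
  refine and_congr Iff.rfl ?_
  rw [hdet]
  constructor
  · intro h
    rw [h, map_one]
  · intro h
    apply (algebraMap K Ω).injective
    rw [h, map_one]

/-- **The split elements, in the letters of the frame.** -/
theorem splE_ff (hk : IsGlobalFunctionField k) [GFF k] (hA : Anis k K D n) (ho : Odd n)
    (hn3 : 3 ≤ n) (hch : (n : k) ≠ 0) (f : D →ₐ[K] Matrix (Fin n) (Fin n) Ω)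
    (B : Basis (Fin N) k D) {ι : Type} {ν : ι → AbsoluteValue D ℝ} (hν : NuF k K D B ν)
    {T : Set (Place k)} (hT : T.Finite) (hTA : Adiv k K D ⊆ T)
    (hTS : ∀ v, v ∉ T → SplAt K D n v) {R : D →* K}
    (hdet : ∀ x, (f x).det = algebraMap K Ω (R x)) : SplE n R ν (SpF (plF K T)) := by
  classical
  have hfd : FiniteDimensional K D := Module.finite_of_finrank_pos (by
    rw [hA.finrank_eq]
    positivity)
  haveI : FiniteDimensional k K := (H519.quad hA.fixed hA.star_ne).1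
  haveI : GFF K := Hey.H63.gff_of_finite (k := k)
  intro j hs hsU ε hε
  obtain ⟨δ, hδ, hδν⟩ := hν.le ε hε
  obtain ⟨g, hg, hgs⟩ := exists_split hk hA ho hn3 f B hT j.1 j.2.2
    (fun v hv => hTS v (j.2.2 v hv)) (hs.image fun h : Dˣ => (h : D)) (by
      intro h hh
      obtain ⟨u, hu, rfl⟩ := Finset.mem_image.1 hh
      exact hsU u hu) (q := 1) one_ne_zero hδ
  refine ⟨(g : Dˣ), (mem_Gg_iff hdet).2 g.2, hδν _ fun v hv => hg v (hTA hv), fun h hh => ?_⟩
  have h1 := hgs (h : D) (Finset.mem_image_of_mem _ hh)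
  rw [pow_one, ← Units.val_mul] at h1
  obtain ⟨v0, hv0⟩ := j.2.1
  obtain ⟨W0, hW0⟩ := exists_above_ab (K := K) v0
  have hdeg := (h1 v0 hv0 W0 hW0).1
  have hint : IsIntegral K ((h * (g : Dˣ) : Dˣ) : D) := Algebra.IsIntegral.isIntegral _
  refine ⟨hdeg, SpF.of_minpoly (sep_of_natDegree (minpoly.irreducible hint) (minpoly.monic hint)
    ?_) fun V hV => ?_⟩
  · rw [hdeg, ← map_natCast (algebraMap k K)]
    exact (_root_.map_ne_zero _).2 hch
  · obtain ⟨v, hv, hvV⟩ := hV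
    exact (h1 v hv V hvV).2

/-- Hilbert 90 for elements close to one. -/
theorem hil_near {V : Place K} {κ b : K} (hκ : κ + star κ = 1) (hb : b * star b = 1) :
    b * star (κ + b * star κ) = κ + b * star κ ∧
      V.abv (κ + b * star κ - 1) = V.abv (b - 1) * V.abv (star κ) := by
  constructor
  · rw [star_add, star_mul', star_star]
    linear_combination κ * hb
  · rw [← map_mul]
    congr 1
    linear_combination hκ

/-- **(E1) and (E3) over function fields**, the degree is not divisible by the characteristic: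
the commutators of the unitary elements close to one are in `Q`. -/
theorem e13F (hk : IsGlobalFunctionField k) [GFF k] (hA : Anis k K D n) (ho : Odd n)
    (hn3 : 3 ≤ n) (hch : (n : k) ≠ 0) (hN1 : ∀ p : ℕ, p.Prime → p ∣ n → N1 p)
    (hN2 : ∀ p : ℕ, p.Prime → p ∣ n → N2 p) (f : D →ₐ[K] Matrix (Fin n) (Fin n) Ω)
    (B : Basis (Fin N) k D) {T : Set (Place k)} (hT : T.Finite) (hTne : T.Nonempty)
    (hTA : Adiv k K D ⊆ T) (hTS : ∀ v, v ∉ T → SplAt K D n v) {ε0 : ℝ} (hε0 : 0 < ε0) :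
    ∃ ε : ℝ, 0 < ε ∧ ∀ Q H : Subgroup (SUA f), Q ≤ H →
      (∀ g : SUA f, Nr B (Adiv k K D) ε0 ((g : Dˣ) : D) → g ∈ H) →
      (∀ g : SUA f, ∀ x ∈ H, ⁅g, x⁆ ∈ Q) →
      (∀ (u : UA D) (h : SUA f), Nr B T ε ((u : Dˣ) : D) → Nr B (Adiv k K D) ε ((h : Dˣ) : D) →
        ⁅(u : Dˣ), (h : Dˣ)⁆ ∈ Q.map (SUA f).subtype) ∧
      ∀ u w : UA D, Nr B T ε ((u : Dˣ) : D) → Nr B T ε ((w : Dˣ) : D) →
        ⁅(u : Dˣ), (w : Dˣ)⁆ ∈ Q.map (SUA f).subtype := by
  classical
  have hfd : FiniteDimensional K D := Module.finite_of_finrank_pos (by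
    rw [hA.finrank_eq]
    positivity)
  have hq := H519.quad hA.fixed hA.star_ne
  haveI : FiniteDimensional k K := hq.1
  haveI : GFF K := Hey.H63.gff_of_finite (k := k)
  obtain ⟨v1, hv1⟩ := hTne
  obtain ⟨V1, hV1⟩ := exists_above_ab (K := K) v1
  haveI : Infinite K := infinite_of_place V1
  haveI := hA.central
  have hsalg : ∀ c : K, star (algebraMap K D c) = algebraMap K D (star c) := fun c => by
    rw [Algebra.algebraMap_eq_smul_one, star_smul, star_one, ← Algebra.algebraMap_eq_smul_one]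
  obtain ⟨R, hR, -, hRdet⟩ := H327.TN.exists_rn (n := n) hA.finrank_eq hsalg
  have hdet : ∀ x, (f x).det = algebraMap K Ω (R x) := hRdet Ω f
  obtain ⟨ι, _, ν, hν⟩ := exists_nuF hA (by omega) f B
  have hT' : (abT K T).Finite := abT_finite hT
  have hAT : abT K (Adiv k K D) ⊆ abT K T := fun V ⟨v, hv, h⟩ => ⟨v, hTA hv, h⟩
  have hO : ∀ i, ∀ c ∈ OT (abT K T), ν i (algebraMap K D c) ≤ 1 := by
    intro i c hc
    obtain ⟨V, hV, h⟩ := hν.pl i
    have h1 := (h c 1).1 (by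
      rw [map_one]
      exact hc V (hAT hV))
    rwa [map_one, map_one] at h1
  have hsmk : ∀ δ : ℝ, 0 < δ → ∃ m : k, m ≠ 0 ∧ ∀ v ∈ T, v.abv m < δ := by
    intro δ hδ
    obtain ⟨m, hm, h⟩ := exists_small_scalar hT.toFinset (fun _ => δ) fun _ => hδ
    exact ⟨m, hm, fun v hv => h v (hT.mem_toFinset.2 hv)⟩
  have hOTm : ∀ m : k, (∀ v ∈ T, v.abv m ≤ 1) → algebraMap k K m ∈ OT (abT K T) := by
    rintro m hm V ⟨v, hv, hV⟩
    exact hV.le_one (hm v hv)
  have hsm : ∀ ε : ℝ, 0 < ε → ∃ c ∈ OT (abT K T), c ≠ 0 ∧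
      ∀ i, ν i (algebraMap K D c) < ε := by
    intro ε hε
    obtain ⟨m, hm, h⟩ := hsmk (min ε 1) (lt_min hε one_pos)
    refine ⟨algebraMap k K m, hOTm m fun v hv => ((h v hv).trans_le (min_le_right _ _)).le,
      (_root_.map_ne_zero _).2 hm, fun i => ?_⟩
    obtain ⟨v, hv, h1⟩ := hν.alg i
    rw [← IsScalarTower.algebraMap_apply, h1]
    exact (h v (hTA hv)).trans_le (min_le_left _ _)
  obtain ⟨m, hm0, hm⟩ := hsmk 1 one_pos
  set q : K := algebraMap k K m with hqdef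
  have hq0 : q ≠ 0 := (_root_.map_ne_zero _).2 hm0
  have hq1 : ∀ V ∈ abT K T, V.abv q < 1 := by
    rintro V ⟨v, hv, hV⟩
    exact hV.lt_one (hm v hv)
  have hqO : q ∈ OT (abT K T) := fun V hV => (hq1 V hV).le
  -- a place outside `T`
  obtain ⟨v0, hv0, -⟩ := H519.exists_split_place hk hA (by omega) hT.toFinset 0
  have hv0T : v0 ∉ T := fun h => hv0 (hT.mem_toFinset.2 h)
  choose bel hbel using fun W : Place K => exists_below_ab (k := k) W
  have hJ : ∀ S : Finset (Place K), (∀ V ∈ S, V ∉ abT K T) →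
      ∃ j : JF T, (S : Set (Place K)) ⊆ plF K T j := by
    intro S hS
    refine ⟨⟨insert v0 (S.image bel), Finset.insert_nonempty _ _, fun v hv => ?_⟩,
      fun V hV => ⟨bel V, ?_, hbel V⟩⟩
    · rcases Finset.mem_insert.1 hv with rfl | hv
      · exact hv0T
      · obtain ⟨V, hV, rfl⟩ := Finset.mem_image.1 hv
        exact fun h => hS V hV ⟨_, h, hbel V⟩
    · exact Finset.mem_coe.2 (Finset.mem_insert_of_mem (Finset.mem_image_of_mem _ hV))
  have hsp := splE_ff hk hA ho hn3 hch f B hν hT hTA hTS hdet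
  obtain ⟨δ0, hδ0, hge⟩ := hν.ge ε0 hε0
  have hε1 : 0 < min δ0 1 := lt_min hδ0 one_pos
  have hTN : ∀ p : ℕ, p.Prime → p ∣ n →
      ∀ (F F' : IntermediateField K (AlgebraicClosure K)) (h : F ≤ F'), FiniteDimensional K F →
      FiniteDimensional K F' → Algebra.IsSeparable K F →
      IsGalois F (IntermediateField.extendScalars h) →
      finrank F (IntermediateField.extendScalars h) = p → ∀ c ∈ OT (abT K T), c ≠ 0 →
      letI := (IntermediateField.inclusion h).toRingHom.toAlgebra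
      TN (OT (abT K T)) (SpF (plF K T)) F F' (q * c) c := by
    intro p hp hpn F F' h hF hF' hFs hG hd c hc hc0
    let i1 : Algebra F F' := (IntermediateField.inclusion h).toRingHom.toAlgebra
    have i2 : IsScalarTower K F F' := IsScalarTower.of_algebraMap_eq fun _ => rfl
    have i3 : IsGalois F F' := hG
    have hd' : finrank F F' = p := hd
    have hpK : (p : K) ≠ 0 := by
      intro h0
      apply hch
      obtain ⟨a, rfl⟩ := hpn
      have h1 : (p : k) = 0 := by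
        apply (algebraMap k K).injective
        rw [map_natCast, h0, map_zero]
      rw [Nat.cast_mul, h1, zero_mul]
    exact tn_ff hT' (plF K T) hJ hp (hN1 p hp hpn) (hN2 p hp hpn) hpK hd' hq0 hq1 hc0 hc
  obtain ⟨cK, hcO, hc0, hmain⟩ := comm_ofF (Ω := AlgebraicClosure K) hR hν.fa
    (fun x => Algebra.IsIntegral.isIntegral x) hO hsm
    (fun j => ⟨fun V _ => by
      rw [Polynomial.map_one]
      exact Polynomial.Splits.one, fun q hq h => (hq.not_isUnit (isUnit_of_dvd_one h)).elim⟩)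
    (fun j P Q hP hQ => hP.mul hQ) (fun j q hq h => h.2 q hq dvd_rfl)
    ((hJ ∅ (fun _ h => by simp at h)).nonempty) hsp hqO hq0 hTN hε1 (min_le_right _ _)
  -- Hilbert 90
  obtain ⟨κ, hκ⟩ : ∃ κ : K, κ + star κ = 1 := by
    obtain ⟨x, hx⟩ := hA.star_ne
    have h1 : x - star x ≠ 0 := sub_ne_zero.2 fun h => hx h.symm
    have h2 : star x - x ≠ 0 := sub_ne_zero.2 hx
    refine ⟨x / (x - star x), ?_⟩
    rw [star_div₀, star_sub, star_star]
    field_simp
    ring
  have hr : ∀ V : Place K, 0 < min (V.abv cK) (1 / 2) / (V.abv (star κ) + 1) := fun V => by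
    have h1 := V.abv.pos hc0
    have h2 := V.abv.nonneg (star κ)
    positivity
  obtain ⟨δ2, hδ2, hnrd⟩ := nrd_near (K := K) f hdet B hT _ hr
  obtain ⟨δ3, hδ3, hle⟩ := hν.le (min δ0 1) hε1
  have huni : ∀ u : UA D, (u : Dˣ) ∈ Ug D := fun u => u.2
  have hbound : ∀ u : UA D, Nr B T δ2 ((u : Dˣ) : D) → ∀ V ∈ abT K T,
      V.abv (R ((u : Dˣ) : D) - 1) * V.abv (star κ) ≤ min (V.abv cK) (1 / 2) := by
    rintro u hu V ⟨v, hv, hV⟩
    have h1 := hnrd _ hu v hv V hV
    have h2 := V.abv.nonneg (star κ)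
    have h3 : 0 < V.abv (star κ) + 1 := by linarith
    rw [lt_div_iff₀ h3] at h1
    have h4 := V.abv.nonneg (R ((u : Dˣ) : D) - 1)
    nlinarith
  have hw : ∀ u : UA D, Nr B T δ2 ((u : Dˣ) : D) → ∃ w : K, Near (OT (abT K T)) K cK w ∧
      Qt R (u : Dˣ) w := by
    intro u hu
    have hb : R ((u : Dˣ) : D) * star (R ((u : Dˣ) : D)) = 1 := by
      rw [← hR.star, ← map_mul, mem_Ug.1 (huni u), map_one]
    refine ⟨κ + R ((u : Dˣ) : D) * star κ, ⟨(κ + R ((u : Dˣ) : D) * star κ - 1) / cK,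
      Itg.alg fun V hV => ?_, ?_⟩, ?_, (hil_near (V := V1) hκ hb).1⟩
    · change V.abv ((κ + R ((u : Dˣ) : D) * star κ - 1) / cK) ≤ 1
      rw [map_div₀, (hil_near hκ hb).2]
      exact div_le_one_of_le₀ ((hbound u hu V hV).trans (min_le_left _ _)) (V.abv.nonneg _)
    · rw [Algebra.algebraMap_self, RingHom.id_apply, mul_div_cancel₀ _ hc0]
      ring
    · intro h0
      have h1 := (hil_near (V := V1) hκ hb).2
      rw [h0, zero_sub, AbsoluteValue.map_neg, map_one] at h1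
      have h2 := (hbound u hu V1 ⟨v1, hv1, hV1⟩).trans (min_le_right _ _)
      rw [← h1] at h2
      norm_num at h2
  refine ⟨min δ2 δ3, lt_min hδ2 hδ3, fun Q H hQH hH hc => ?_⟩
  obtain ⟨hE1, hE3⟩ := hmain (Q.map (SUA f).subtype) (H.map (SUA f).subtype)
    (Subgroup.map_mono hQH) (by
      rintro - ⟨x, -, rfl⟩
      exact (mem_Gg_iff hdet).2 x.2) (by
      rintro g hg - ⟨x, hx, rfl⟩
      exact ⟨⁅(⟨g, (mem_Gg_iff hdet).1 hg⟩ : SUA f), x⁆, hc _ x hx, rfl⟩) (by
      intro g hg hgb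
      refine ⟨⟨g, (mem_Gg_iff hdet).1 hg⟩, hH _ fun v hv => ?_, rfl⟩
      exact hge _ (fun i => (hgb i).trans_le (min_le_left _ _)) v hv)
  refine ⟨fun u h hu hh => ?_, fun u w hu hw' => ?_⟩
  · obtain ⟨w, hw1, hw2⟩ := hw u (hu.mono (min_le_left _ _))
    refine hE1 _ (huni u) w hw1 hw2 _ ((mem_Gg_iff hdet).2 h.2) ?_
    exact hle _ fun v hv => (hh v hv).mono (min_le_right _ _)
  · obtain ⟨w1, hw1, hw2⟩ := hw u (hu.mono (min_le_left _ _))
    obtain ⟨w2, hw3, hw4⟩ := hw w (hw'.mono (min_le_left _ _))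
    refine hE3 _ (huni u) _ (huni w) ?_ ?_ w1 w2 hw1 hw3 hw2 hw4
    · exact hle _ fun v hv => (hu v (hTA hv)).mono (min_le_right _ _)
    · exact hle _ fun v hv => (hw' v (hTA hv)).mono (min_le_right _ _)

/-- The set of places. -/
theorem exists_TF [GFF k] (hA : Anis k K D n) (hn : 1 < n) {T0 : Set (Place k)}
    (hT0 : T0.Finite) : ∃ T : Set (Place k), T.Finite ∧ T.Nonempty ∧ T0 ⊆ T ∧
      Adiv k K D ⊆ T ∧ ∀ v, v ∉ T → SplAt K D n v := by
  have hcen := hA.central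
  have hsim := hA.simple
  obtain ⟨T1, hT1⟩ := H961.exists_split_ae (k := k) (A := D) hA.fixed (by omega) hA.finrank_eq
  obtain ⟨v0⟩ := Hey.nonempty_place k
  refine ⟨insert v0 (T0 ∪ (T1 ∪ Adiv k K D)), ((hT0.union (T1.finite_toSet.union
    (adiv_finite hA hn))).insert _), ⟨v0, Set.mem_insert _ _⟩, fun v hv => ?_, fun v hv => ?_,
    fun v hv => ?_⟩
  · exact Set.mem_insert_of_mem _ (Or.inl hv)
  · exact Set.mem_insert_of_mem _ (Or.inr (Or.inr hv))
  · exact hT1 v fun h => hv (Set.mem_insert_of_mem _ (Or.inr (Or.inl h)))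

/-- The same, in the letters of the reduction. -/
theorem e13F_near (hk : IsGlobalFunctionField k) [GFF k] (hA : Anis k K D n) (ho : Odd n)
    (hn3 : 3 ≤ n) (hch : (n : k) ≠ 0) (hN1 : ∀ p : ℕ, p.Prime → p ∣ n → N1 p)
    (hN2 : ∀ p : ℕ, p.Prime → p ∣ n → N2 p) (f : D →ₐ[K] Matrix (Fin n) (Fin n) Ω)
    (B : Basis (Fin N) k D) {T : Set (Place k)} (hT : T.Finite) (hTne : T.Nonempty)
    (hTA : Adiv k K D ⊆ T) (hTS : ∀ v, v ∉ T → SplAt K D n v) {Q H : Subgroup (SUA f)}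
    (hQH : Q ≤ H) (hH : NearA k K f B H) (hc : ∀ g : SUA f, ∀ x ∈ H, ⁅g, x⁆ ∈ Q) :
    ∃ ε : ℝ, 0 < ε ∧
      (∀ (u : UA D) (h : SUA f), Nr B T ε ((u : Dˣ) : D) → Nr B (Adiv k K D) ε ((h : Dˣ) : D) →
        ⁅(u : Dˣ), (h : Dˣ)⁆ ∈ Q.map (SUA f).subtype) ∧
      ∀ u w : UA D, Nr B T ε ((u : Dˣ) : D) → Nr B T ε ((w : Dˣ) : D) →
        ⁅(u : Dˣ), (w : Dˣ)⁆ ∈ Q.map (SUA f).subtype := by
  obtain ⟨T0, hT0, ε0, hε0, h⟩ := hH
  obtain ⟨ε, hε, h1⟩ := e13F hk hA ho hn3 hch hN1 hN2 f B hT hTne hTA hTS hε0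
  exact ⟨ε, hε, h1 Q H hQH (fun g hg => h g fun v hv => hg v (hT0 v hv)) hc⟩

end Vale.Agent.P011.H74.Odd
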