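import Vale.Agent.P011.H74.Odd.TN
import Vale.Agent.P011.H699.Odd.TypB
import Vale.Agent.P011.H813.NormOpen

/-!
# Norms from a field of a given type, over function fields

Every characteristic, every degree.
-/

open Polynomial Module

set_option linter.unusedSectionVars false
set_option linter.style.haveILetI false

namespace Vale.Agent.P011.H74.Odd

open Vale.Agent.P011.H738 Vale.Agent.P011.H271 Vale.Agent.P011.H271.S3 Vale.Agent.P011.H973.PF
open Vale.Agent.P011.H511.FF
open Vale.Agent.P011.H699.Odd (Near TN PC)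

/-- products of elements close to elements of size at most one -/
theorem prod_near {F ι : Type*} [NormedField F] [IsUltrametricDist F] {r : ℝ} (hr0 : 0 < r)
    (hr : r ≤ 1) (s : Finset ι) (x t : ι → F) (ht : ∀ i ∈ s, ‖t i‖ ≤ 1)
    (h : ∀ i ∈ s, ‖x i - t i‖ < r) : ‖∏ i ∈ s, x i - ∏ i ∈ s, t i‖ < r ∧ ‖∏ i ∈ s, t i‖ ≤ 1 := by
  classical
  induction s using Finset.induction_on with
  | empty => simpa using hr0
  | insert a s ha ih =>
    obtain ⟨h1, h2⟩ := ih (fun i hi => ht i (Finset.mem_insert_of_mem hi))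
      (fun i hi => h i (Finset.mem_insert_of_mem hi))
    have h3 := ht a (Finset.mem_insert_self _ _)
    have h4 := h a (Finset.mem_insert_self _ _)
    rw [Finset.prod_insert ha, Finset.prod_insert ha]
    have h5 : ‖x a‖ ≤ 1 := by
      have e : x a = (x a - t a) + t a := by ring
      rw [e]
      exact (IsUltrametricDist.norm_add_le_max _ _).trans (max_le (h4.le.trans hr) h3)
    constructor
    · have e : x a * ∏ i ∈ s, x i - t a * ∏ i ∈ s, t i =
          x a * (∏ i ∈ s, x i - ∏ i ∈ s, t i) + (x a - t a) * ∏ i ∈ s, t i := by ring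
      rw [e]
      refine (IsUltrametricDist.norm_add_le_max _ _).trans_lt (max_lt ?_ ?_)
      · rw [norm_mul]
        exact (mul_le_of_le_one_left (norm_nonneg _) h5).trans_lt h1
      · rw [norm_mul]
        exact (mul_le_of_le_one_right (norm_nonneg _) h2).trans_lt h4
    · rw [norm_mul]
      exact mul_le_one₀ h3 (norm_nonneg _) h2

/-- A nonzero scalar which is small at finitely many places. -/
theorem exists_small_fin {R : Type} [Field R] [GFF R] (S : Finset (Place R)) (δ : Place R → ℝ)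
    (hδ : ∀ v ∈ S, 0 < δ v) : ∃ g : R, g ≠ 0 ∧ ∀ v ∈ S, v.abv g < δ v := by
  classical
  rcases S.eq_empty_or_nonempty with rfl | hne
  · exact ⟨1, one_ne_zero, fun v hv => absurd hv (Finset.notMem_empty v)⟩
  have h1 : ∀ v : Place R, ∃ g : R, g ≠ 0 ∧ (v ∈ S → v.abv g < δ v) := fun v => by
    by_cases hv : v ∈ S
    · obtain ⟨g, h1, -, h2⟩ := exists_small v (hδ v hv)
      exact ⟨g, h1, fun _ => h2⟩
    · exact ⟨1, one_ne_zero, fun h => absurd h hv⟩
  choose g hg0 hg using h1
  obtain ⟨γ, hγ, hγl⟩ := exists_lb S (fun v => v.abv (g v)) fun v _ => v.abv.pos (hg0 v)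
  obtain ⟨m, hm⟩ := weakP S g hγ
  have h2 : ∀ v ∈ S, v.abv m = v.abv (g v) := fun v hv =>
    abv_eq_of_sub_lt v ((hm v hv).trans_le (hγl v hv))
  refine ⟨m, ?_, fun v hv => by rw [h2 v hv]; exact hg v hv⟩
  rintro rfl
  obtain ⟨v, hv⟩ := hne
  have h3 := h2 v hv
  rw [map_zero] at h3
  exact (v.abv.pos (hg0 v)).ne h3

section split

variable {R M : Type} [Field R] [GFF R] [Field M] [Algebra R M] [FiniteDimensional R M]
  [Algebra.IsSeparable R M]

/-- **Norms from a field which is totally split at finitely many places.** -/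
theorem norm_ts (S : Finset (Place R)) (hS : ∀ v ∈ S, TS R M v) {a c g : R}
    (hc : ∀ v ∈ S, v.abv c ≤ 1) (hg : g ≠ 0) (ha : ∀ v ∈ S, v.abv (a - 1) < v.abv c) :
    ∃ y : M, y ≠ 0 ∧ (∀ v ∈ S, v.abv (a / Algebra.norm R y - 1) < v.abv g) ∧
      ∀ v ∈ S, ∀ w : Place M, Ab w v → w.abv (y - 1) < w.abv (algebraMap R M c) := by
  classical
  haveI : GFF M := Hey.H63.gff_of_finite (k := R)
  rcases S.eq_empty_or_nonempty with rfl | hne
  · exact ⟨1, one_ne_zero, fun v hv => absurd hv (Finset.notMem_empty _),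
      fun v hv => absurd hv (Finset.notMem_empty _)⟩
  -- a small scalar
  have hc0 : ∀ v ∈ S, 0 < v.abv c := fun v hv => (v.abv.nonneg _).trans_lt (ha v hv)
  obtain ⟨e, he0, he⟩ := exists_small_fin S (fun v => min (v.abv g) (v.abv c)) fun v hv =>
    lt_min (v.abv.pos hg) (hc0 v hv)
  have heg : ∀ v ∈ S, v.abv e < v.abv g := fun v hv => (he v hv).trans_le (min_le_left _ _)
  have hec : ∀ v ∈ S, v.abv e < v.abv c := fun v hv => (he v hv).trans_le (min_le_right _ _)
  -- one place above each place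
  have hex : ∀ v : Place R, ∃ φ : v ∈ S → (M →ₐ[R] v.comp), True := fun v => by
    by_cases hv : v ∈ S
    · obtain ⟨φ⟩ := (hS v hv).exists_emb
      exact ⟨fun _ => φ, trivial⟩
    · exact ⟨fun h => absurd h hv, trivial⟩
  choose φ0 _ using hex
  have hA0 : {w : Place M | ∃ v ∈ (S : Set (Place R)), Av' w v}.Finite :=
    above_finite S.finite_toSet
  set A := hA0.toFinset with hA
  have hmemA : ∀ {w : Place M}, w ∈ A ↔ ∃ v ∈ S, Ab w v := by
    intro w
    rw [hA, Set.Finite.mem_toFinset]
    exact ⟨fun ⟨V, hV, h⟩ => ⟨V, hV, ab_of_av h⟩, fun ⟨V, hV, h⟩ => ⟨V, hV, av_of_ab h⟩⟩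
  let t : Place M → M := fun w => if ∃ (v : Place R) (hv : v ∈ S), w = plE (φ0 v hv) then
    algebraMap R M a else 1
  have heM : algebraMap R M e ≠ 0 := (_root_.map_ne_zero _).mpr he0
  obtain ⟨γ, hγ, hγl⟩ := exists_lb A (fun w => w.abv (algebraMap R M e)) fun w _ =>
    w.abv.pos heM
  obtain ⟨y, hy⟩ := weakP A t hγ
  have hy' : ∀ w ∈ A, w.abv (y - t w) < w.abv (algebraMap R M e) := fun w hw =>
    (hy w hw).trans_le (hγl w hw)
  -- the places of embeddings
  have hpl : ∀ v (hv : v ∈ S) (φ : M →ₐ[R] v.comp),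
      ‖φ y - if φ = φ0 v hv then algebraMap R v.comp a else 1‖ < v.abv e := by
    intro v hv φ
    have h1 := hy' (plE φ) (hmemA.2 ⟨v, hv, plE_ab φ⟩)
    rw [plE_lt, φ.commutes, norm_alg, map_sub] at h1
    have h2 : φ (t (plE φ)) = if φ = φ0 v hv then algebraMap R v.comp a else 1 := by
      by_cases h3 : φ = φ0 v hv
      · rw [if_pos h3]
        have h4 : t (plE φ) = algebraMap R M a := if_pos ⟨v, hv, by rw [h3]⟩
        rw [h4, φ.commutes]
      · rw [if_neg h3]
        have h4 : t (plE φ) = 1 := by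
          refine if_neg ?_
          rintro ⟨v', hv', h5⟩
          have h6 : v' = v := by
            have h7 := plE_ab φ
            rw [h5] at h7
            exact (av_of_ab (plE_ab (φ0 v' hv'))).unique (av_of_ab h7)
          subst h6
          exact h3 (plE_inj h5)
        rw [h4, map_one]
    rwa [h2] at h1
  have ha1 : ∀ v ∈ S, v.abv a = 1 := by
    intro v hv
    have h1 : v.abv (a - 1) < v.abv 1 := by
      rw [map_one]
      exact (ha v hv).trans_le (hc v hv)
    rw [abv_eq_of_sub_lt v h1, map_one]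
  have hN : ∀ v ∈ S, v.abv (Algebra.norm R y - a) < v.abv e := by
    intro v hv
    haveI := isUltra v
    have h1 := prod_near (v.abv.pos he0) ((hec v hv).le.trans (hc v hv)) Finset.univ
      (fun φ : M →ₐ[R] v.comp => φ y)
      (fun φ => if φ = φ0 v hv then algebraMap R v.comp a else 1) (fun φ _ => by
        split_ifs
        · rw [norm_alg, ha1 v hv]
        · rw [norm_one]) (fun φ _ => hpl v hv φ)
    have h2 : ∏ φ : M →ₐ[R] v.comp, (if φ = φ0 v hv then algebraMap R v.comp a else 1) =
        algebraMap R v.comp a := by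
      rw [Finset.prod_ite_eq' Finset.univ (φ0 v hv) fun _ => algebraMap R v.comp a]
      exact if_pos (Finset.mem_univ _)
    rw [h2, ← (hS v hv).norm_eq, ← map_sub, norm_alg] at h1
    exact h1.1
  have hN1 : ∀ v ∈ S, v.abv (Algebra.norm R y) = 1 := by
    intro v hv
    have h1 : v.abv (Algebra.norm R y - a) < v.abv a := by
      rw [ha1 v hv]
      exact (hN v hv).trans ((hec v hv).trans_le (hc v hv))
    rw [abv_eq_of_sub_lt v h1, ha1 v hv]
  have hy0 : y ≠ 0 := by
    rintro rfl
    obtain ⟨v, hv⟩ := hne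
    have h1 := hN1 v hv
    rw [Algebra.norm_zero, map_zero] at h1
    exact zero_ne_one h1
  refine ⟨y, hy0, fun v hv => ?_, fun v hv w hw => ?_⟩
  · have h0 : Algebra.norm R y ≠ 0 := Algebra.norm_ne_zero_iff.mpr hy0
    have e1 : a / Algebra.norm R y - 1 = -((Algebra.norm R y - a) / Algebra.norm R y) := by
      field_simp
      ring
    rw [e1, AbsoluteValue.map_neg, map_div₀, hN1 v hv, div_one]
    exact (hN v hv).trans (heg v hv)
  · have h1 := hy' w (hmemA.2 ⟨v, hv, hw⟩)
    have h2 : w.abv (algebraMap R M e) < w.abv (algebraMap R M c) :=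
      (ab_lt_iff hw _ _).2 (hec v hv)
    have h3 : w.abv (t w - 1) < w.abv (algebraMap R M c) := by
      by_cases h4 : ∃ (v : Place R) (hv : v ∈ S), w = plE (φ0 v hv)
      · have h5 : t w = algebraMap R M a := if_pos h4
        have h6 := (ab_lt_iff hw _ _).2 (ha v hv)
        rwa [map_sub, map_one, ← h5] at h6
      · have h5 : t w = 1 := if_neg h4
        rw [h5, sub_self, map_zero]
        exact w.abv.pos ((_root_.map_ne_zero _).mpr fun h0 => by
          have := hc0 v hv
          rw [h0, map_zero] at this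
          exact lt_irrefl _ this)
    have e1 : y - 1 = (y - t w) + (t w - 1) := by ring
    rw [e1]
    exact (w.nonarch _ _).trans_lt (max_lt (h1.trans h2) h3)

end split

theorem ab_self {K : Type} [Field K] (V : Place K) : Ab V V :=
  ⟨1, one_pos, fun x => by rw [Real.rpow_one]; rfl⟩

/-- Nearness to one in the ground field. -/
theorem near_base {K : Type} [Field K] [GFF K] {T : Set (Place K)} {c : K} (hc : c ≠ 0) (x : K) :
    Near (OT T) K c x ↔ ∀ V ∈ T, V.abv (x - 1) ≤ V.abv c := by
  rw [near_iff hc]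
  constructor
  · intro h V hV
    exact h V hV V (ab_self V)
  · intro h V hV W hW
    have h1 : V = W := (av_of_ab hW).unique (av_of_ab (ab_self W))
    subst h1
    exact h V hV

section ff

variable {K : Type} [Field K] [GFF K] {T : Set (Place K)}

/-- Small scalars of the ground field are small above. -/
theorem exists_small_above (hT : T.Finite) (R : Type) [Field R] [Algebra K R]
    [FiniteDimensional K R] [Algebra.IsSeparable K R] {δ : ℝ} (hδ : 0 < δ) {c : K} (hc : c ≠ 0) :
    ∃ d : K, d ≠ 0 ∧ d ∈ OT T ∧ (∀ V ∈ T, V.abv d < V.abv c) ∧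
      ∀ V ∈ T, ∀ w : Place R, Ab w V → w.abv (algebraMap K R d) < δ := by
  classical
  haveI : GFF R := Hey.H63.gff_of_finite (k := K)
  obtain ⟨δ2, hδ2, h2⟩ := H813.small_smul (R := K) (R' := R) hT.toFinset (1 : R) hδ
  obtain ⟨d, hd0, hd⟩ := exists_small_fin hT.toFinset (fun V => min (min δ2 1) (V.abv c))
    fun V _ => lt_min (lt_min hδ2 one_pos) (V.abv.pos hc)
  refine ⟨d, hd0, fun V hV => ?_, fun V hV => ?_, fun V hV w hw => ?_⟩
  · exact ((hd V (hT.mem_toFinset.2 hV)).trans_le ((min_le_left _ _).trans (min_le_right _ _))).le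
  · exact (hd V (hT.mem_toFinset.2 hV)).trans_le (min_le_right _ _)
  · have h3 := h2 d (fun v hv => (hd v hv).trans_le ((min_le_left _ _).trans (min_le_left _ _)))
      V (hT.mem_toFinset.2 hV) w hw
    rwa [Algebra.smul_def, mul_one] at h3

/-- The places above the places of `T`. -/
theorem exists_abv_fin (hT : T.Finite) (R : Type) [Field R] [Algebra K R]
    [FiniteDimensional K R] : ∃ S : Finset (Place R), ∀ w, w ∈ S ↔ ∃ V ∈ T, Ab w V := by
  classical
  haveI : GFF R := Hey.H63.gff_of_finite (k := K)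
  have hA0 : {w : Place R | ∃ V ∈ T, Av' w V}.Finite := above_finite hT
  refine ⟨hA0.toFinset, fun w => ?_⟩
  rw [Set.Finite.mem_toFinset]
  exact ⟨fun ⟨V, hV, h⟩ => ⟨V, hV, ab_of_av h⟩, fun ⟨V, hV, h⟩ => ⟨V, hV, av_of_ab h⟩⟩

/-- **The norms from `C` are open near one**, the radius depends on `C / R`. -/
theorem hopen_ff (hT : T.Finite) {R C : Type} [Field R] [Field C] [Algebra K R] [Algebra K C]
    [Algebra R C] [IsScalarTower K R C] [FiniteDimensional K R] [FiniteDimensional K C]
    [Algebra.IsSeparable K R] [Algebra.IsSeparable R C] {c' : K} (hc' : c' ≠ 0) :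
    ∃ d : K, d ≠ 0 ∧ ∀ z : R, z ≠ 0 → Near (OT T) R d z → PC (OT T) C R c' z := by
  classical
  haveI : GFF R := Hey.H63.gff_of_finite (k := K)
  haveI : GFF C := Hey.H63.gff_of_finite (k := K)
  haveI : FiniteDimensional R C := FiniteDimensional.right K R C
  obtain ⟨S, hS⟩ := exists_abv_fin hT R
  obtain ⟨S', hS'⟩ := exists_abv_fin hT C
  obtain ⟨δ₁, hδ₁, hl⟩ := exists_lb S' (fun w => w.abv (algebraMap K C c')) fun w _ =>
    w.abv.pos ((_root_.map_ne_zero _).mpr hc')
  obtain ⟨δ, hδ, h⟩ := H813.norm_open_ab (R := R) (R' := C) S hδ₁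
  obtain ⟨d, hd0, -, -, hd⟩ := exists_small_above hT R hδ (one_ne_zero (α := K))
  refine ⟨d, hd0, fun z hz hnz d' hd' => ?_⟩
  rw [near_iff hd0] at hnz
  obtain ⟨ε, hε, hεl⟩ := exists_lb S (fun w => w.abv (algebraMap K R d')) fun w _ =>
    w.abv.pos ((_root_.map_ne_zero _).mpr hd')
  obtain ⟨y, hy, h1, -, h2⟩ := h z (fun v hv => by
    obtain ⟨V, hV, hvV⟩ := (hS v).1 hv
    exact (hnz V hV v hvV).trans_lt (hd V hV v hvV)) ε hε
  have hN : Algebra.norm R y ≠ 0 := Algebra.norm_ne_zero_iff.mpr hy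
  refine ⟨y, z / Algebra.norm R y, hy, div_ne_zero hz hN, ?_, ?_, by field_simp⟩
  · rw [near_iff hc']
    intro V hV w hw
    obtain ⟨u, hu⟩ := exists_below_ab (k := R) w
    obtain ⟨V', hV'⟩ := exists_below_ab (k := K) u
    have h10 : V' = V := (av_of_ab (ab_trans hu hV')).unique (av_of_ab hw)
    subst h10
    exact (h2 u ((hS u).2 ⟨V', hV, hV'⟩) w hu).le.trans (hl w ((hS' w).2 ⟨V', hV, hw⟩))
  · rw [near_iff hd']
    intro V hV w hw
    exact (h1 w ((hS w).2 ⟨V, hV, hw⟩)).le.trans (hεl w ((hS w).2 ⟨V, hV, hw⟩))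

/-- **The bottom of the chains**: `L` is fixed, `C` is totally split over `L` above `T`. -/
theorem hbot_ff (hT : T.Finite) (L : Type) [Field L] [Algebra K L] [FiniteDimensional K L]
    [Algebra.IsSeparable K L] {c' : K} (hc'0 : c' ≠ 0) (hc' : c' ∈ OT T) :
    ∃ cB : K, cB ≠ 0 ∧ cB ∈ OT T ∧ ∀ (C : Type) [Field C] [Algebra K C] [Algebra L C]
      [IsScalarTower K L C] [FiniteDimensional K C] [Algebra.IsSeparable L C],
      (∀ V ∈ T, ∀ W : Place L, Ab W V → TS L C W) →
        ∀ w : K, w ≠ 0 → Near (OT T) K cB w → PC (OT T) C K c' w := by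
  classical
  haveI : GFF L := Hey.H63.gff_of_finite (k := K)
  obtain ⟨S, hS⟩ := exists_abv_fin hT L
  obtain ⟨δ₁, hδ₁, hl⟩ := exists_lb S (fun w => w.abv (algebraMap K L c')) fun w _ =>
    w.abv.pos ((_root_.map_ne_zero _).mpr hc'0)
  obtain ⟨δ, hδ, h⟩ := H813.norm_open_ab (R := K) (R' := L) hT.toFinset hδ₁
  obtain ⟨cB, hcB0, hcBO, -, hcB⟩ := exists_small_above hT K hδ (one_ne_zero (α := K))
  refine ⟨cB, hcB0, hcBO, ?_⟩
  intro C _ _ _ _ _ _ hts w hw0 hw d hd
  haveI : GFF C := Hey.H63.gff_of_finite (k := K)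
  haveI : FiniteDimensional L C := FiniteDimensional.right K L C
  rw [near_base hcB0] at hw
  obtain ⟨e, he0, heO, hed, -⟩ := exists_small_above hT K one_pos hd
  obtain ⟨ε, hε, hεl⟩ := exists_lb hT.toFinset (fun V => V.abv e) fun V _ => V.abv.pos he0
  obtain ⟨y0, hy0, h1, -, h2⟩ := h w (fun V hV => by
    have hV' := hT.mem_toFinset.1 hV
    have h3 := hcB V hV' V (ab_self V)
    exact (hw V hV').trans_lt h3) ε hε
  have hint : ∀ W ∈ S, W.abv (algebraMap K L c') ≤ 1 := by
    intro W hW
    obtain ⟨V, hV, hWV⟩ := (hS W).1 hW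
    exact hWV.le_one (hc' V hV)
  obtain ⟨y, hy, h3, h4⟩ := norm_ts (R := L) (M := C) S (fun W hW => by
    obtain ⟨V, hV, hWV⟩ := (hS W).1 hW
    exact hts V hV W hWV) (a := y0) (c := algebraMap K L c') (g := algebraMap K L e) hint
    ((_root_.map_ne_zero _).mpr he0) (fun W hW => by
      obtain ⟨V, hV, hWV⟩ := (hS W).1 hW
      exact (h2 V (hT.mem_toFinset.2 hV) W hWV).trans_le (hl W hW))
  have hN1 : Algebra.norm L y ≠ 0 := Algebra.norm_ne_zero_iff.mpr hy
  have hN0 : Algebra.norm K y0 ≠ 0 := Algebra.norm_ne_zero_iff.mpr hy0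
  have hNK : Algebra.norm K (Algebra.norm L y) ≠ 0 := Algebra.norm_ne_zero_iff.mpr hN1
  have htr : Algebra.norm K y = Algebra.norm K (Algebra.norm L y) := Algebra.norm_norm.symm
  refine ⟨y, w / Algebra.norm K y, hy, div_ne_zero hw0 (htr ▸ hNK), ?_, ?_, by
    have : Algebra.norm K y ≠ 0 := htr ▸ hNK
    field_simp⟩
  · rw [near_iff hc'0]
    intro V hV u hu
    obtain ⟨W, hW⟩ := exists_below_ab (k := L) u
    obtain ⟨V', hV'⟩ := exists_below_ab (k := K) W
    have h10 : V' = V := (av_of_ab (ab_trans hW hV')).unique (av_of_ab hu)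
    subst h10
    have h5 := h4 W ((hS W).2 ⟨V', hV, hV'⟩) u hW
    rw [← IsScalarTower.algebraMap_apply K L C] at h5
    exact h5.le
  · rw [near_base hd]
    intro V hV
    have h5 : V.abv (Algebra.norm K (y0 / Algebra.norm L y) - 1) < V.abv e := by
      refine norm_near he0 (heO V hV) fun W hW => ?_
      exact h3 W ((hS W).2 ⟨V, hV, hW⟩)
    have h6 : V.abv (w / Algebra.norm K y0 - 1) < V.abv e :=
      (h1 V (hT.mem_toFinset.2 hV)).trans_le (hεl V (hT.mem_toFinset.2 hV))
    have h7 : w / Algebra.norm K y - 1 =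
        (w / Algebra.norm K y0 - 1) * (Algebra.norm K (y0 / Algebra.norm L y) - 1) +
          ((w / Algebra.norm K y0 - 1) + (Algebra.norm K (y0 / Algebra.norm L y) - 1)) := by
      have h8 : w / Algebra.norm K y =
          (w / Algebra.norm K y0) * Algebra.norm K (y0 / Algebra.norm L y) := by
        have h9 : Algebra.norm K (y0 / Algebra.norm L y) =
            Algebra.norm K y0 / Algebra.norm K (Algebra.norm L y) := by
          rw [eq_div_iff hNK, ← map_mul, div_mul_cancel₀ _ hN1]
        rw [h9, htr]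
        field_simp
      rw [h8]
      ring
    rw [h7]
    have h9 : V.abv e ≤ 1 := heO V hV
    refine ((V.nonarch _ _).trans (max_le ?_ ((V.nonarch _ _).trans (max_le h6.le h5.le)))).trans
      (hed V hV).le
    rw [map_mul]
    exact (mul_le_of_le_one_left (V.abv.nonneg _) (h6.le.trans h9)).trans h5.le

/-- A compositum which is totally split over the splitting field of the first polynomial. -/
theorem ts_of_split {K L C : Type} [Field K] [Field L] [Field C] [Algebra K L] [Algebra L C]
    [Algebra K C] [IsScalarTower K L C] [FiniteDimensional K C] {P₀ P : K[X]}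
    (h0 : (P₀.map (algebraMap K L)).Splits) (hC : (P₀ * P).IsSplittingField K C) {W : Place L}
    (hW : ((P.map (algebraMap K L)).map (algebraMap L W.comp)).Splits) : TS L C W := by
  haveI : FiniteDimensional L C := FiniteDimensional.right K L C
  have hS : IntermediateField.adjoin L ((P₀ * P).rootSet C) = ⊤ := by
    rw [eq_top_iff]
    intro x _
    have h1 : IntermediateField.adjoin K ((P₀ * P).rootSet C) = ⊤ :=
      IntermediateField.adjoin_eq_top_of_algebra K _ hC.adjoin_rootSet
    have h2 : x ∈ IntermediateField.adjoin K ((P₀ * P).rootSet C) := by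
      rw [h1]
      exact IntermediateField.mem_top
    have h3 : IntermediateField.adjoin K ((P₀ * P).rootSet C) ≤
        (IntermediateField.adjoin L ((P₀ * P).rootSet C)).restrictScalars K := by
      rw [IntermediateField.adjoin_le_iff]
      exact IntermediateField.subset_adjoin L _
    exact h3 h2
  intro x
  refine H327.SplitHom.splits_of_splits (K := L) (R := L) (M := C) (C := W.comp) (C' := W.comp)
    (RingHom.id _) (fun _ => rfl) ((P₀ * P).rootSet C) hS (fun s hs => ?_) x
  refine ⟨Algebra.IsIntegral.isIntegral s, ?_⟩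
  obtain ⟨h1, h2⟩ := mem_rootSet.1 hs
  have hP0 : P₀ ≠ 0 := left_ne_zero_of_mul h1
  have hP : P ≠ 0 := right_ne_zero_of_mul h1
  rw [map_mul, mul_eq_zero] at h2
  have key : ∀ Q : K[X], Q ≠ 0 → aeval s Q = 0 →
      ((Q.map (algebraMap K L)).map (algebraMap L W.comp)).Splits →
      ((minpoly L s).map (algebraMap L W.comp)).Splits := by
    intro Q hQ hs hsp
    refine hsp.of_dvd ?_ (Polynomial.map_dvd _ (minpoly.dvd L s ?_))
    · exact Polynomial.map_ne_zero (Polynomial.map_ne_zero hQ)
    · rwa [aeval_map_algebraMap]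
  rcases h2 with h2 | h2
  · exact key P₀ hP0 h2 (h0.map _)
  · exact key P hP h2 hW

/-- **Fields of a fixed type**: the splitting field of `P₀ * P`, where `P` splits over the
completions above `T` of the splitting field of `P₀`. -/
theorem botC (hT : T.Finite) {P₀ : K[X]} (hP₀ : P₀.Separable) {c' : K} (hc'0 : c' ≠ 0)
    (hc' : c' ∈ OT T) :
    ∃ cB : K, cB ≠ 0 ∧ cB ∈ OT T ∧ ∀ P : K[X], P.Separable →
      (∀ V ∈ T, ∀ W : Place P₀.SplittingField, Ab W V →
        ((P.map (algebraMap K P₀.SplittingField)).map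
          (algebraMap P₀.SplittingField W.comp)).Splits) →
      ∃ (C : Type) (_ : Field C) (_ : Algebra K C), FiniteDimensional K C ∧ IsGalois K C ∧
        (P.map (algebraMap K C)).Splits ∧
        (∀ R : IntermediateField K C, ∃ d : K, d ≠ 0 ∧
          ∀ z : R, z ≠ 0 → Near (OT T) R d z → PC (OT T) C R c' z) ∧
        ∀ w : K, w ≠ 0 → Near (OT T) K cB w → PC (OT T) C K c' w := by
  haveI hsepL : Algebra.IsSeparable K P₀.SplittingField :=
    (IsGalois.of_separable_splitting_field hP₀).to_isSeparable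
  obtain ⟨cB, hcB0, hcBO, h⟩ := hbot_ff hT P₀.SplittingField hc'0 hc'
  refine ⟨cB, hcB0, hcBO, fun P hP hsp => ?_⟩
  have hPP : P₀ * P ≠ 0 := mul_ne_zero hP₀.ne_zero hP.ne_zero
  have hsplit : ((P₀ * P).map (algebraMap K (P₀ * P).SplittingField)).Splits :=
    SplittingField.splits _
  have hmap0 : (P₀ * P).map (algebraMap K (P₀ * P).SplittingField) ≠ 0 :=
    Polynomial.map_ne_zero hPP
  have h0 : (P₀.map (algebraMap K (P₀ * P).SplittingField)).Splits :=
    hsplit.of_dvd hmap0 (Polynomial.map_dvd _ (dvd_mul_right _ _))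
  have h1 : (P.map (algebraMap K (P₀ * P).SplittingField)).Splits :=
    hsplit.of_dvd hmap0 (Polynomial.map_dvd _ (dvd_mul_left _ _))
  let φ : P₀.SplittingField →ₐ[K] (P₀ * P).SplittingField :=
    IsSplittingField.lift P₀.SplittingField P₀ h0
  letI : Algebra P₀.SplittingField (P₀ * P).SplittingField := φ.toRingHom.toAlgebra
  haveI : IsScalarTower K P₀.SplittingField (P₀ * P).SplittingField :=
    IsScalarTower.of_algebraMap_eq fun x => (φ.commutes x).symm
  have hnorm : Normal K (P₀ * P).SplittingField := Normal.of_isSplittingField (P₀ * P)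
  have hsepC : Algebra.IsSeparable K (P₀ * P).SplittingField := by
    rw [← IntermediateField.isSeparable_top,
      ← IntermediateField.adjoin_eq_top_of_algebra K _
        (IsSplittingField.adjoin_rootSet (P₀ * P).SplittingField (P₀ * P)),
      IntermediateField.isSeparable_adjoin_iff_isSeparable]
    intro s hs
    have h2 := (mem_rootSet.1 hs).2
    rw [map_mul, mul_eq_zero] at h2
    rcases h2 with h2 | h2
    · exact hP₀.of_dvd (minpoly.dvd K s h2)
    · exact hP.of_dvd (minpoly.dvd K s h2)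
  have hgal : IsGalois K (P₀ * P).SplittingField := ⟨⟩
  haveI : Algebra.IsSeparable P₀.SplittingField (P₀ * P).SplittingField :=
    Algebra.isSeparable_tower_top_of_isSeparable K _ _
  refine ⟨(P₀ * P).SplittingField, inferInstance, inferInstance, inferInstance, hgal, h1,
    fun R => ?_, h _ fun V hV W hW => ?_⟩
  · haveI : Algebra.IsSeparable K R :=
      Algebra.isSeparable_tower_bot_of_isSeparable K R (P₀ * P).SplittingField
    haveI : Algebra.IsSeparable R (P₀ * P).SplittingField :=
      Algebra.isSeparable_tower_top_of_isSeparable K _ _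
    exact hopen_ff hT hc'0
  · exact ts_of_split (SplittingField.splits P₀) (Polynomial.IsSplittingField.splittingField _)
      (hsp V hV W hW)

end ff

end Vale.Agent.P011.H74.Odd
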