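import Vale.Agent.P011.H74.Odd.E13F
import Vale.Agent.P011.H738.SolvFF

/-!
# The invariance near one at `T` implies the invariance near one at the places of division type
-/

open Polynomial Module
open scoped commutatorElement

set_option linter.unusedSectionVars false
set_option linter.style.haveILetI false

namespace Vale.Agent.P011.H74.Odd

open Vale.Agent.P011.H738 Vale.Agent.P011.H271 Vale.Agent.P011.H271.S3 Vale.Agent.P011.H973.PF
open Vale.Agent.P011.H511.FF Vale.Agent.P011.H698 Vale.Agent.P011.H704.HQ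
open Vale.Agent.P011.H271.StarF
open Vale.Agent.P011.H699.Odd

section abs

variable {K D : Type} [Field K] [StarRing K] [DivisionRing D] [StarRing D] [Algebra K D]
  {n : ℕ} {N : D →* K} {ι : Type} {ν : ι → AbsoluteValue D ℝ} {E : Type} [CommGroup E] {ε : ℝ}
  {X : Set (Dˣ → E)}

/-- The elements of the ball for which the invariance holds. -/
def Est (hν : Fa ν) (hε0 : 0 < ε) (hε : ε ≤ 1) (hX : Fam N ν ε X) (PK : K → Prop) :
    Subgroup Dˣ where
  carrier := {h | h ∈ Gg N ∧ Bl ν ε h ∧ ∀ χ ∈ X, ∀ (u : Dˣ) (w : K), u ∈ Ug D → PK w →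
    Qt N u w → χ (u * h * u⁻¹) = χ h}
  mul_mem' := by
    rintro a b ⟨ha, hab, ha'⟩ ⟨hb, hbb, hb'⟩
    refine ⟨mul_mem ha hb, hab.mul hε hν hbb, fun χ hχ u w hu hw huw => ?_⟩
    have h1 : u * (a * b) * u⁻¹ = (u * a * u⁻¹) * (u * b * u⁻¹) := by group
    rw [h1, hX.mul χ hχ _ _ (Gg_conj ha hu) (hab.conj u) (Gg_conj hb hu) (hbb.conj u),
      ha' χ hχ u w hu hw huw, hb' χ hχ u w hu hw huw, hX.mul χ hχ _ _ ha hab hb hbb]
  one_mem' := by
    refine ⟨one_mem _, fun i => ?_, fun χ _ u w _ _ _ => ?_⟩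
    · rw [Units.val_one, sub_self, map_zero]
      exact hε0
    · rw [mul_one, mul_inv_cancel]
  inv_mem' := by
    rintro a ⟨ha, hab, ha'⟩
    refine ⟨inv_mem ha, hab.inv hε hν, fun χ hχ u w hu hw huw => ?_⟩
    have h1 : u * a⁻¹ * u⁻¹ = (u * a * u⁻¹)⁻¹ := by group
    rw [h1, hX.map_inv hν hε0 hε hχ (Gg_conj ha hu) (hab.conj u), ha' χ hχ u w hu hw huw,
      hX.map_inv hν hε0 hε hχ ha hab]

theorem Qt.conj {u a : Dˣ} {w : K} (h : Qt N u w) : Qt N (a⁻¹ * u * a) w := by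
  refine ⟨h.1, ?_⟩
  have h1 : N ((a⁻¹ * u * a : Dˣ) : D) = N (u : D) := by
    rw [Units.val_mul, Units.val_mul, map_mul, map_mul, mul_comm (N ((a⁻¹ : Dˣ) : D)),
      mul_assoc, ← map_mul, Units.inv_mul, map_one, mul_one]
  rw [h1]
  exact h.2

/-- The subgroup is normalized by the unitary elements. -/
theorem Est.conj {hν : Fa ν} {hε0 : 0 < ε} {hε : ε ≤ 1} {hX : Fam N ν ε X} {PK : K → Prop}
    {a h : Dˣ} (ha : a ∈ Ug D) (hh : h ∈ Est hν hε0 hε hX PK) :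
    a * h * a⁻¹ ∈ Est hν hε0 hε hX PK := by
  obtain ⟨h1, h2, h3⟩ := hh
  refine ⟨Gg_conj h1 ha, h2.conj a, fun χ hχ u w hu hw huw => ?_⟩
  have h4 := h3 _ (hX.stab χ hχ a ha) (a⁻¹ * u * a) w (mul_mem (mul_mem (inv_mem ha) hu) ha) hw
    (Qt.conj huw)
  have h5 : a * (a⁻¹ * u * a * h * (a⁻¹ * u * a)⁻¹) * a⁻¹ = u * (a * h * a⁻¹) * u⁻¹ := by group
  rw [h5] at h4
  exact h4

end abs

variable {k K D Ω : Type} [Field k] [Field K] [StarRing K] [DivisionRing D] [StarRing D]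
  [Algebra k K] [Algebra k D] [Algebra K D] [IsScalarTower k K D] [StarModule K D] {n N : ℕ}
  [Field Ω] [Algebra K Ω]

/-- **The subgroup generated by the conjugates of the elements close to one at `T` contains the
elements close to one at the places of division type.** -/
theorem exists_TA (hk : IsGlobalFunctionField k) [GFF k] (hA : Anis k K D n) (hn : 3 ≤ n)
    (f : D →ₐ[K] Matrix (Fin n) (Fin n) Ω) (B : Basis (Fin N) k D) {T : Set (Place k)}
    (hT : T.Finite) {η : ℝ} (hη : 0 < η) : ∃ ε' : ℝ, 0 < ε' ∧ ∀ M : Subgroup (UA D), M.Normal →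
      (∀ g : UA D, (g : Dˣ) ∈ SUA f → Nr B T η ((g : Dˣ) : D) → g ∈ M) →
      ∀ g : UA D, (g : Dˣ) ∈ SUA f → Nr B (Adiv k K D) ε' ((g : Dˣ) : D) → g ∈ M := by
  let S : Set (UA D) := {g | (g : Dˣ) ∈ SUA f ∧ Nr B T η ((g : Dˣ) : D)}
  have hle : Subgroup.normalClosure S ≤ GA f := by
    refine Subgroup.normalClosure_le_normal ?_
    intro g hg
    exact hg.1
  obtain ⟨T', hT', ε', hε', h⟩ := rem_FF_all hk hA hn f B (splitNS hA (by omega))
    (Subgroup.normalClosure S) inferInstance hle (mem_FNr.mpr ⟨hT.toFinset, η, hη, by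
      intro g hg hg'
      exact Subgroup.subset_normalClosure ⟨hg, fun v hv => hg' v (hT.mem_toFinset.2 hv)⟩⟩)
  refine ⟨ε', hε', fun M hM hM' g hg hg' => ?_⟩
  have h1 : Subgroup.normalClosure S ≤ M := Subgroup.normalClosure_le_normal fun x hx =>
    hM' x hx.1 hx.2
  exact h1 (h g hg fun v hv => hg' v (hT' v hv))

/-- **The invariance near one at `T` implies the invariance near one at the places of division
type**, uniformly. -/
theorem inv1_of_T (hk : IsGlobalFunctionField k) [GFF k] (hA : Anis k K D n) (hn : 3 ≤ n)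
    (f : D →ₐ[K] Matrix (Fin n) (Fin n) Ω) (B : Basis (Fin N) k D) {ι : Type}
    {ν : ι → AbsoluteValue D ℝ} (hν : NuF k K D B ν) {R : D →* K}
    (hdet : ∀ x, (f x).det = algebraMap K Ω (R x)) {T : Set (Place k)} (hT : T.Finite)
    (hTA : Adiv k K D ⊆ T) {η ε : ℝ} (hη : 0 < η) (hε0 : 0 < ε) (hε : ε ≤ 1) :
    ∃ ε' : ℝ, 0 < ε' ∧ ε' ≤ ε ∧ ∀ (E : Type) [CommGroup E] (X : Set (Dˣ → E)) (PK : K → Prop),
      Fam R ν ε X → (∀ χ ∈ X, ∀ (u : Dˣ) (w : K), u ∈ Ug D → PK w → Qt R u w → ∀ h ∈ Gg R,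
        Bl ν ε h → Nr B T η (h : D) → χ (u * h * u⁻¹) = χ h) → Inv1 R ν ε' X PK := by
  obtain ⟨δ, hδ, hle⟩ := hν.le ε hε0
  obtain ⟨ε1, hε1, hTAm⟩ := exists_TA hk hA hn f B hT (lt_min hη hδ)
  obtain ⟨δ', hδ', hge⟩ := hν.ge ε1 hε1
  refine ⟨min ε δ', lt_min hε0 hδ', min_le_left _ _, fun E _ X PK hX h => ?_⟩
  let M : Subgroup (UA D) := (Est hν.fa hε0 hε hX PK).comap (UA D).subtype
  have hM : M.Normal := ⟨fun x hx a => by
    rw [Subgroup.mem_comap] at hx ⊢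
    exact Est.conj (a := (a : Dˣ)) a.2 hx⟩
  have hM' : ∀ g : UA D, (g : Dˣ) ∈ SUA f → Nr B T (min η δ) ((g : Dˣ) : D) → g ∈ M := by
    intro g hg hg'
    have h1 : (g : Dˣ) ∈ Gg R := (mem_Gg_iff hdet).2 hg
    have h2 : Bl ν ε (g : Dˣ) := hle _ fun v hv => (hg' v (hTA hv)).mono (min_le_right _ _)
    exact ⟨h1, h2, fun χ hχ u w hu hw huw => h χ hχ u w hu hw huw _ h1 h2
      (hg'.mono (min_le_left _ _))⟩
  intro χ hχ u w hu hw huw g hg hgb
  have h1 := hTAm M hM hM' ⟨g, hg.1⟩ ((mem_Gg_iff hdet).1 hg) fun v hv =>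
    hge _ (fun i => (hgb i).trans_le (min_le_right _ _)) v hv
  exact h1.2.2 χ hχ u w hu hw huw

end Vale.Agent.P011.H74.Odd
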