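import Vale.Agent.P011.Hey.H63.LocAbs

/-!
# Base change of a Galois extension of prime degree

`E / R` is Galois of prime degree `p`, `M / R` is a finite extension which does not contain `E`.
There is a Galois extension `M' / M` of degree `p` with `M' = M ⊗ E`.
-/

open Polynomial Module TensorProduct

set_option linter.unusedSectionVars false
set_option linter.style.haveILetI false

namespace Vale.Agent.P011.H74.Odd

open Vale.Agent.P011.Hey.H63 (IsN toM toM_tmul norm_map)

section bc

variable {R E M M' : Type*} [Field R] [Field E] [Field M] [Field M'] [Algebra R E] [Algebra R M]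
  [Algebra R M'] [Algebra M M'] [Algebra E M'] [IsScalarTower R M M'] [IsScalarTower R E M']
  [FiniteDimensional R E] [FiniteDimensional R M]

/-- Norms from `F ⊗ M'` and norms from `F ⊗ E`. -/
theorem isN_bc (hb : Function.Bijective (toM : M ⊗[R] E →ₐ[M] M')) {F : Type*} [Field F]
    [Algebra M F] [Algebra R F] [IsScalarTower R M F] (u : F) :
    IsN M M' F u ↔ IsN R E F u := by
  let e₁ : M ⊗[R] E ≃ₐ[M] M' := AlgEquiv.ofBijective toM hb
  let e₂ : F ⊗[M] (M ⊗[R] E) ≃ₐ[F] F ⊗[R] E := Algebra.TensorProduct.cancelBaseChange R M F F E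
  let e₃ : F ⊗[M] (M ⊗[R] E) ≃ₐ[F] F ⊗[M] M' :=
    Algebra.TensorProduct.congr AlgEquiv.refl e₁
  constructor
  · rintro ⟨x, hx⟩
    refine ⟨e₂ (e₃.symm x), ?_⟩
    rw [Algebra.norm_eq_of_algEquiv e₂, Algebra.norm_eq_of_algEquiv e₃.symm, hx]
  · rintro ⟨x, hx⟩
    refine ⟨e₃ (e₂.symm x), ?_⟩
    rw [Algebra.norm_eq_of_algEquiv e₃, Algebra.norm_eq_of_algEquiv e₂.symm, hx]

end bc

/-- A norm from `F ⊗ E` is a norm from `F' ⊗ E`. -/
theorem IsN.map {R E F F' : Type*} [Field R] [Field E] [Field F] [Field F'] [Algebra R E]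
    [Algebra R F] [Algebra R F'] [FiniteDimensional R E] (φ : F →ₐ[R] F') {u : F}
    (h : IsN R E F u) : IsN R E F' (φ u) := by
  obtain ⟨x, rfl⟩ := h
  exact ⟨_, norm_map φ x⟩

/-- **The compositum.** -/
theorem exists_bc {R E M : Type} [Field R] [Field E] [Field M] [Algebra R E] [Algebra R M]
    [FiniteDimensional R E] [FiniteDimensional R M] [IsGalois R E] {p : ℕ} (hp : p.Prime)
    (hE : finrank R E = p) (hne : ∀ _ : E →ₐ[R] M, False) :
    ∃ (M' : Type) (_ : Field M') (_ : Algebra R M') (_ : Algebra M M') (_ : Algebra E M')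
      (_ : IsScalarTower R M M') (_ : IsScalarTower R E M'),
      FiniteDimensional M M' ∧ IsGalois M M' ∧ finrank M M' = p ∧
        Function.Bijective (toM : M ⊗[R] E →ₐ[M] M') := by
  classical
  let pb := Field.powerBasisOfFiniteOfSeparable R E
  set g : R[X] := minpoly R pb.gen with hg
  have hgsep : g.Separable := Algebra.IsSeparable.isSeparable R pb.gen
  have hgint : IsIntegral R pb.gen := Algebra.IsIntegral.isIntegral pb.gen
  have hgspl : (g.map (algebraMap R E)).Splits := Normal.splits inferInstance pb.gen
  set gM : M[X] := g.map (algebraMap R M) with hgM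
  have hgMsep : gM.Separable := hgsep.map
  let M' := gM.SplittingField
  haveI : IsGalois M M' := IsGalois.of_separable_splitting_field hgMsep
  have hdeg : gM.natDegree ≠ 0 := by
    rw [hgM, natDegree_map]
    exact (minpoly.natDegree_pos hgint).ne'
  have hspl : (gM.map (algebraMap M M')).Splits := SplittingField.splits gM
  have hev : ∀ x : M', eval x (gM.map (algebraMap M M')) = aeval x g := by
    intro x
    change eval x ((g.map (algebraMap R M)).map (algebraMap M M')) = _
    rw [Polynomial.map_map, ← IsScalarTower.algebraMap_eq, eval_map_algebraMap]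
  obtain ⟨α, hα⟩ : ∃ α : M', aeval α g = 0 := by
    have h1 : (gM.map (algebraMap M M')).degree ≠ 0 := by
      rw [degree_map]
      intro h0
      exact hdeg (natDegree_eq_of_degree_eq_some h0)
    obtain ⟨α, hα⟩ := hspl.exists_eval_eq_zero h1
    exact ⟨α, by rw [← hev, hα]⟩
  let ι : E →ₐ[R] M' := pb.lift α hα
  letI : Algebra E M' := ι.toRingHom.toAlgebra
  haveI : IsScalarTower R E M' := IsScalarTower.of_algebraMap_eq fun x => (ι.commutes x).symm
  haveI : FiniteDimensional M M' := inferInstance
  have hsurj : Function.Surjective (toM : M ⊗[R] E →ₐ[M] M') := by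
    have h1 : (⊤ : Subalgebra M M') ≤ (toM : M ⊗[R] E →ₐ[M] M').range := by
      rw [← SplittingField.adjoin_rootSet gM, Algebra.adjoin_le_iff]
      intro β hβ
      have h2 : aeval β g = 0 := by
        have h3 := (mem_rootSet.1 hβ).2
        rw [← eval_map_algebraMap, hev] at h3
        exact h3
      have h3 : ((g.map (algebraMap R E)).map (algebraMap E M')).eval β = 0 := by
        rw [Polynomial.map_map, ← IsScalarTower.algebraMap_eq, eval_map_algebraMap]
        exact h2
      have hg0 : (g.map (algebraMap R E)) ≠ 0 := (minpoly.monic hgint).map _ |>.ne_zero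
      have h4 : β ∈ ((g.map (algebraMap R E)).map (algebraMap E M')).roots := by
        rw [mem_roots]
        · exact h3
        · rw [Ne, Polynomial.map_eq_zero]
          exact hg0
      rw [hgspl.roots_map] at h4
      obtain ⟨e, -, he⟩ := Multiset.mem_map.1 h4
      exact ⟨(1 : M) ⊗ₜ[R] e, by rw [← he]; change toM ((1 : M) ⊗ₜ[R] e) = _; rw [toM_tmul, map_one, one_mul]⟩
    intro x
    exact h1 (Algebra.mem_top (R := M) (x := x))
  -- the degree
  have hcard : Nat.card (M' ≃ₐ[M] M') = finrank M M' := IsGalois.card_aut_eq_finrank M M'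
  have hcardE : Nat.card (E ≃ₐ[R] E) = p := by rw [IsGalois.card_aut_eq_finrank R E, hE]
  let ρ : (M' ≃ₐ[M] M') →* (E ≃ₐ[R] E) :=
    (AlgEquiv.restrictNormalHom (F := R) (K₁ := M') E).comp (AlgEquiv.restrictScalarsHom R)
  have hρ : Function.Injective ρ := by
    rw [injective_iff_map_eq_one]
    intro τ hτ
    ext x
    obtain ⟨y, rfl⟩ := hsurj x
    induction y with
    | zero => simp
    | add a b ha hb => rw [map_add, map_add, map_add, ha, hb]
    | tmul m e =>
      rw [toM_tmul, map_mul, map_mul, AlgEquiv.commutes]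
      have h1 : algebraMap E M' (ρ τ e) = τ (algebraMap E M' e) :=
        AlgEquiv.restrictNormal_commutes (τ.restrictScalars R) E e
      rw [hτ] at h1
      rw [← h1]
      rfl
  have hdvd : finrank M M' ∣ p := by
    rw [← hcard, ← hcardE]
    exact Subgroup.card_dvd_of_injective ρ hρ
  have hne1 : finrank M M' ≠ 1 := by
    intro h1
    have h2 : ∀ x : M', ∃ m : M, algebraMap M M' m = x := by
      obtain ⟨e⟩ := nonempty_algEquiv_iff_finrank_eq_one.2 h1
      intro x
      refine ⟨e.symm x, ?_⟩
      have h3 := e.commutes (e.symm x)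
      rw [Algebra.algebraMap_self_apply, e.apply_symm_apply] at h3
      exact h3.symm
    choose r hr using h2
    have hinj := (algebraMap M M').injective
    exact hne
      { toFun := fun e => r (ι e)
        map_one' := hinj (by rw [hr, map_one, map_one])
        map_mul' := fun x y => hinj (by rw [hr, map_mul ι, map_mul (algebraMap M M'), hr, hr])
        map_zero' := hinj (by rw [hr, map_zero, map_zero])
        map_add' := fun x y => hinj (by rw [hr, map_add ι, map_add (algebraMap M M'), hr, hr])
        commutes' := fun a => hinj (by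
          rw [hr, ι.commutes, ← IsScalarTower.algebraMap_apply]) }
  have hfr : finrank M M' = p := ((Nat.dvd_prime hp).1 hdvd).resolve_left hne1
  refine ⟨M', inferInstance, inferInstance, inferInstance, inferInstance, inferInstance,
    inferInstance, inferInstance, inferInstance, hfr, ?_, hsurj⟩
  have hdim : finrank M (M ⊗[R] E) = finrank M M' := by
    rw [Module.finrank_baseChange, hE, hfr]
  exact (LinearMap.injective_iff_surjective_of_finrank_eq_finrank
    (f := (toM : M ⊗[R] E →ₐ[M] M').toLinearMap) hdim).mpr hsurj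

end Vale.Agent.P011.H74.Odd
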