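import Vale.Agent.P011.H74.Odd.BotC
import Vale.Agent.P011.H699.Odd.TypDef

/-!
# The two inputs `HOpen` and `HBot`
-/

open Polynomial Module

set_option linter.unusedSectionVars false
set_option linter.style.haveILetI false

namespace Vale.Agent.P011.H74.Odd

open Vale.Agent.P011.H738 Vale.Agent.P011.H271 Vale.Agent.P011.H271.S3 Vale.Agent.P011.H973.PF
open Vale.Agent.P011.H511.FF
open Vale.Agent.P011.H699.Odd (Near TN PC)
open Vale.Agent.P011.H699.Odd.TypC (HOpen HBot)

variable {K : Type} [Field K] [GFF K] {T : Set (Place K)}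

/-- **(a0)** -/
theorem hOpen (hT : T.Finite) : HOpen K T := by
  intro C _ _ _ _ c' hc'0 _ R
  haveI : Algebra.IsSeparable K R := Algebra.isSeparable_tower_bot_of_isSeparable K R C
  haveI : Algebra.IsSeparable R C := Algebra.isSeparable_tower_top_of_isSeparable K R C
  exact hopen_ff hT hc'0

/-- **(a1)** -/
theorem hBot (hT : T.Finite) : HBot K T := by
  intro L _ _ _ _ c' hc'0 hc'
  obtain ⟨cB, hcB0, hcBO, h⟩ := hbot_ff hT L hc'0 hc'
  refine ⟨cB, hcBO, hcB0, ?_⟩
  intro C _ _ _ _ _ _ P hP hsf hsp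
  haveI : FiniteDimensional L C := FiniteDimensional.right K L C
  haveI : Algebra.IsSeparable L C := Algebra.isSeparable_tower_top_of_isSeparable K L C
  refine h C fun V hV W hW x => ?_
  refine H327.SplitHom.splits_of_splits (K := L) (R := L) (M := C) (C := W.comp) (C' := W.comp)
    (RingHom.id _) (fun _ => rfl) ((P.map (algebraMap K L)).rootSet C)
    (IntermediateField.adjoin_eq_top_of_algebra L _ hsf.adjoin_rootSet) (fun s hs => ?_) x
  refine ⟨Algebra.IsIntegral.isIntegral s, ?_⟩
  obtain ⟨h1, h2⟩ := mem_rootSet.1 hs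
  exact (hsp V hV W hW).of_dvd (Polynomial.map_ne_zero (Polynomial.map_ne_zero hP.ne_zero))
    (Polynomial.map_dvd _ (minpoly.dvd L s h2))

end Vale.Agent.P011.H74.Odd
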