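import Vale.Agent.P011.H511.HasseApproxF
import Vale.Agent.P011.H74.Odd.Bc
import Mathlib.FieldTheory.Normal.Closure
import Mathlib.FieldTheory.Galois.Basic
import Mathlib.RingTheory.Norm.Transitivity

/-!
# Local norms: approximation and descent
-/

open Polynomial Module TensorProduct

set_option linter.unusedSectionVars false
set_option linter.style.haveILetI false

namespace Vale.Agent.P011.H74.Odd

open Vale.Agent.P011.H738 Vale.Agent.P011.H271 Vale.Agent.P011.H271.S3 Vale.Agent.P011.H973.PF
open Vale.Agent.P011.H511.FF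
open Vale.Agent.P011.Hey.H63 (IsN toM toM_tmul norm_map LocN locN_iff norm_one_tmul)

section dens

variable {k E : Type} [Field k] [Field E] [Algebra k E] [FiniteDimensional k E]

/-- The norm form is continuous. -/
theorem norm_cont {F : Type*} [NormedField F] [Algebra k F] (x : F ⊗[k] E) {ε : ℝ} (hε : 0 < ε) :
    ∃ δ : ℝ, 0 < δ ∧ ∀ e : E, (∀ i, ‖algebraMap k F ((Module.finBasis k E).repr e i) -
      (Algebra.TensorProduct.basis F (Module.finBasis k E)).repr x i‖ < δ) →
      ‖algebraMap k F (Algebra.norm k e) - Algebra.norm F x‖ < ε := by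
  classical
  set b := Module.finBasis k E
  set bF := Algebra.TensorProduct.basis F b
  let G : (Fin (finrank k E) → F) → F := fun c =>
    Matrix.det (∑ i, c i • Algebra.leftMulMatrix bF (bF i))
  have hG : Continuous G := by
    refine Continuous.matrix_det ?_
    exact continuous_finsetSum _ fun i _ => (continuous_apply i).smul continuous_const
  have hGe : ∀ y : F ⊗[k] E, G (fun i => bF.repr y i) = Algebra.norm F y := by
    intro y
    rw [Algebra.norm_eq_matrix_det bF]
    conv_rhs => rw [← bF.sum_repr y]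
    simp only [map_sum, map_smul, G]
  obtain ⟨δ, hδ, h⟩ := Metric.continuous_iff.1 hG (fun i => bF.repr x i) ε hε
  refine ⟨δ, hδ, fun e he => ?_⟩
  have h1 : (fun i => bF.repr ((1 : F) ⊗ₜ[k] e) i) = fun i => algebraMap k F (b.repr e i) := by
    funext i
    rw [Algebra.TensorProduct.basis_repr_tmul, one_smul, Finsupp.mapRange_apply]
  have h2 := h (fun i => bF.repr ((1 : F) ⊗ₜ[k] e) i) (by
    rw [h1, dist_pi_lt_iff hδ]
    intro i
    rw [dist_eq_norm]
    exact he i)
  rw [hGe, hGe, dist_eq_norm, norm_one_tmul] at h2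
  exact h2

/-- **Local norms are approximated by global norms, at finitely many places.** -/
theorem approx_norm [GFF k] (S : Finset (Place k)) (u : Place k → k)
    (hu : ∀ v ∈ S, u v ≠ 0 ∧ LocN E (u v) v) (ε : Place k → ℝ) (hε : ∀ v ∈ S, 0 < ε v) :
    ∃ e : E, ∀ v ∈ S, v.abv (u v / Algebra.norm k e - 1) < ε v := by
  classical
  have h1 : ∀ v : Place k, ∃ (δ : ℝ) (r : Fin (finrank k E) → k), 0 < δ ∧ (v ∈ S →
      ∀ e : E, (∀ i, v.abv ((Module.finBasis k E).repr e i - r i) < δ) →
        v.abv (u v / Algebra.norm k e - 1) < ε v) := by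
    intro v
    by_cases hv : v ∈ S
    · obtain ⟨hu0, x, hx⟩ := hu v hv
      have hu1 : 0 < v.abv (u v) := v.abv.pos hu0
      obtain ⟨δ, hδ, h⟩ := norm_cont (k := k) x
        (ε := min (ε v) 1 * v.abv (u v)) (mul_pos (lt_min (hε v hv) one_pos) hu1)
      choose r hr using fun i => dense_alg v
        ((Algebra.TensorProduct.basis v.comp (Module.finBasis k E)).repr x i) hδ
      refine ⟨δ, r, hδ, fun _ e he => ?_⟩
      have h2 := h e fun i => by
        have : algebraMap k v.comp ((Module.finBasis k E).repr e i) -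
            (Algebra.TensorProduct.basis v.comp (Module.finBasis k E)).repr x i =
            algebraMap k v.comp ((Module.finBasis k E).repr e i - r i) +
            -((Algebra.TensorProduct.basis v.comp (Module.finBasis k E)).repr x i -
              algebraMap k v.comp (r i)) := by
          rw [map_sub]
          ring
        rw [this]
        have := isUltra v
        refine (IsUltrametricDist.norm_add_le_max _ _).trans_lt (max_lt ?_ ?_)
        · rw [norm_alg]
          exact he i
        · rw [norm_neg]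
          exact hr i
      rw [hx, ← map_sub, norm_alg] at h2
      have h3 : v.abv (Algebra.norm k e - u v) < v.abv (u v) :=
        h2.trans_le (mul_le_of_le_one_left hu1.le (min_le_right _ _))
      have h4 : v.abv (Algebra.norm k e) = v.abv (u v) := abv_eq_of_sub_lt v h3
      have h5 : Algebra.norm k e ≠ 0 := by
        intro h0
        rw [h0, map_zero] at h4
        exact hu1.ne h4
      have e1 : u v / Algebra.norm k e - 1 = -((Algebra.norm k e - u v) / Algebra.norm k e) := by
        field_simp
        ring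
      rw [e1, AbsoluteValue.map_neg, map_div₀, h4, div_lt_iff₀ hu1]
      exact h2.trans_le (mul_le_mul_of_nonneg_right (min_le_left _ _) hu1.le)
    · exact ⟨1, 0, one_pos, fun h => (hv h).elim⟩
  choose δ r hδ h using h1
  obtain ⟨γ, hγ, hγl⟩ := exists_lb S δ fun v _ => hδ v
  choose c hc using fun i => weakP S (fun v => r v i) hγ
  refine ⟨∑ i, c i • Module.finBasis k E i, fun v hv => h v hv _ fun i => ?_⟩
  rw [Basis.repr_sum_self]
  exact (hc i v hv).trans_le (hγl v hv)

end dens

section near

variable {R M : Type} [Field R] [Field M] [Algebra R M] [FiniteDimensional R M]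
  [Algebra.IsSeparable R M]

/-- **The norm of an element close to one is close to one.** -/
theorem norm_near [GFF R] {v : Place R} {g : R} (hg0 : g ≠ 0) (hg : v.abv g ≤ 1) {a : M}
    (h : ∀ W : Place M, Ab W v → W.abv (a - 1) < W.abv (algebraMap R M g)) :
    v.abv (Algebra.norm R a - 1) < v.abv g := by
  classical
  haveI : GFF M := Hey.H63.gff_of_finite (k := R)
  let Ω := AlgebraicClosure R
  let N := IntermediateField.normalClosure R M Ω
  haveI : FiniteDimensional R N := inferInstance
  haveI : GFF N := Hey.H63.gff_of_finite (k := R)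
  let τ : (M →ₐ[R] Ω) → (M →ₐ[R] N) := fun σ =>
    σ.codRestrict N.toSubalgebra fun x => AlgHom.fieldRange_le_normalClosure σ ⟨x, rfl⟩
  have hτ : ∀ σ x, algebraMap N Ω (τ σ x) = σ x := fun σ x => rfl
  have hnorm : algebraMap R N (Algebra.norm R a) = ∏ σ : M →ₐ[R] Ω, τ σ a := by
    apply (algebraMap N Ω).injective
    rw [map_prod, ← IsScalarTower.algebraMap_apply]
    simp only [hτ]
    exact Algebra.norm_eq_prod_embeddings R Ω a
  obtain ⟨W', hW'⟩ := exists_aboveF (E := N) v
  have hg' : W'.abv (algebraMap R N g) ≤ 1 := (hW' g).mpr hg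
  have hg0' : 0 < W'.abv (algebraMap R N g) :=
    W'.abv.pos ((_root_.map_ne_zero (algebraMap R N)).mpr hg0)
  rw [← av_lt_iff hW', map_sub, map_one, hnorm]
  refine close_prod W' hg' hg0' _ _ fun σ _ => ?_
  let _ : Algebra M N := (τ σ).toRingHom.toAlgebra
  haveI : IsScalarTower R M N := IsScalarTower.of_algebraMap_eq fun x => ((τ σ).commutes x).symm
  haveI : Algebra.IsAlgebraic M N := Algebra.IsAlgebraic.tower_top (K := R) M
  obtain ⟨W, hW⟩ := below_av (k := M) W'
  have hWv : Av' W v := fun x => by
    rw [← hW, ← IsScalarTower.algebraMap_apply]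
    exact hW' x
  have h1 := h W (ab_of_av hWv)
  rw [← av_lt_iff hW] at h1
  rw [map_sub, map_one, ← IsScalarTower.algebraMap_apply] at h1
  exact h1

end near

section desc

variable {R E M M' : Type} [Field R] [Field E] [Field M] [Field M'] [Algebra R E] [Algebra R M]
  [Algebra R M'] [Algebra M M'] [Algebra E M'] [IsScalarTower R M M'] [IsScalarTower R E M']
  [FiniteDimensional R E] [FiniteDimensional R M] [FiniteDimensional M M']
  [Algebra.IsSeparable R M] [Algebra.IsSeparable R E]

/-- An element of small nonzero absolute value. -/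
theorem exists_small [GFF R] (v : Place R) {δ : ℝ} (hδ : 0 < δ) :
    ∃ g : R, g ≠ 0 ∧ v.abv g ≤ 1 ∧ v.abv g < δ := by
  obtain ⟨n, hn⟩ := exists_zpow_lt v (half_pos (lt_min hδ one_pos))
  obtain ⟨z, hz, hz'⟩ := exists_ml v (-n)
  have hn' : ((qq v : ℝ) ^ (-(n : ℤ))) ≤ min δ 1 / 2 := hn
  refine ⟨z, hz, ?_, ?_⟩
  · rw [ml_spec v hz, hz']
    exact hn'.trans ((half_le_self (lt_min hδ one_pos).le).trans (min_le_right _ _))
  · rw [ml_spec v hz, hz']
    exact hn'.trans_lt ((half_lt_self (lt_min hδ one_pos)).trans_le (min_le_left _ _))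

/-- **Norms of local norms.** -/
theorem locN_norm [GFF R] {m : M} (hm : m ≠ 0) {v : Place R}
    (h : ∀ W : Place M, Ab W v → LocN M' m W) : LocN E (Algebra.norm R m) v := by
  classical
  haveI : GFF M := Hey.H63.gff_of_finite (k := R)
  obtain ⟨δ, hδ, -, hopen⟩ := Hey.H63.loc_open E v
  obtain ⟨g, hg0, hg1, hg2⟩ := exists_small v hδ
  have hfin : {W : Place M | ∃ v' ∈ ({v} : Set (Place R)), Av' W v'}.Finite :=
    above_finite (Set.finite_singleton v)
  have hgM : algebraMap R M g ≠ 0 := (_root_.map_ne_zero _).mpr hg0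
  obtain ⟨e, he⟩ := approx_norm (E := M') hfin.toFinset (fun _ => m) (fun W hW => by
    obtain ⟨v', hv', hW'⟩ := (hfin.mem_toFinset.1 hW)
    rw [Set.mem_singleton_iff] at hv'
    subst hv'
    exact ⟨hm, h W (ab_of_av hW')⟩) (fun W => W.abv (algebraMap R M g)) fun W _ => W.abv.pos hgM
  have h1 : v.abv (Algebra.norm R (m / Algebra.norm M e) - 1) < v.abv g :=
    norm_near hg0 hg1 fun W hW => he W (hfin.mem_toFinset.2 ⟨v, rfl, av_of_ab hW⟩)
  have h2 : LocN E (Algebra.norm R (m / Algebra.norm M e)) v := hopen _ (h1.trans hg2)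
  have h3 : Algebra.norm R (Algebra.norm M e) = Algebra.norm R (Algebra.norm E e) := by
    rw [Algebra.norm_norm, Algebra.norm_norm]
  have h4 : LocN E (Algebra.norm R (Algebra.norm M e)) v := by
    rw [h3]
    exact Hey.H63.LocN.of_norm _ v
  have hN0 : Algebra.norm M e ≠ 0 := by
    intro h0
    obtain ⟨W, hW⟩ := exists_aboveF (E := M) v
    have h5 := he W (hfin.mem_toFinset.2 ⟨v, rfl, hW⟩)
    rw [h0, div_zero, zero_sub, AbsoluteValue.map_neg, map_one] at h5
    exact absurd h5 (not_lt.2 ((hW g).mpr hg1))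
  have h5 := h2.mul h4
  rwa [← map_mul, div_mul_cancel₀ _ hN0] at h5

end desc

end Vale.Agent.P011.H74.Odd
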