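import Vale.Agent.P011.H74.Odd.Dn
import Vale.Agent.P011.Hey.Spec

/-!
# Embeddings in a completion and places of degree one
-/

open Polynomial Module TensorProduct

set_option linter.unusedSectionVars false
set_option linter.style.haveILetI false

namespace Vale.Agent.P011.H74.Odd

open Vale.Agent.P011.H738 Vale.Agent.P011.H271 Vale.Agent.P011.H271.S3 Vale.Agent.P011.H973.PF
open Vale.Agent.P011.H511.FF
open Vale.Agent.P011.Hey (cO mem_cO)
open Vale.Agent.P011.Hey.H63 (IsN toM toM_tmul norm_map LocN locN_iff norm_one_tmul)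

section emb

variable {R M : Type} [Field R] [GFF R] [Field M] [Algebra R M] [FiniteDimensional R M]

/-- The place of an embedding. -/
theorem exists_plE {v : Place R} (φ : M →ₐ[R] v.comp) :
    ∃ W : Place M, ∃ c : ℝ, 0 < c ∧ ∀ x : M, W.abv x = ‖φ x‖ ^ c := by
  haveI : GFF M := Hey.H63.gff_of_finite (k := R)
  have hne : (cO v).comap (φ : M →+* v.comp) ≠ ⊤ := by
    intro h
    obtain ⟨x, hx⟩ := v.normalized.2.1
    have h1 : algebraMap R M x ∈ (cO v).comap (φ : M →+* v.comp) := by rw [h]; trivial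
    have h2 : ‖φ (algebraMap R M x)‖ ≤ 1 := h1
    rw [φ.commutes, norm_alg, hx] at h2
    exact absurd h2 (not_le.2 (one_lt_qq' v))
  obtain ⟨W, hW⟩ := toPl_surjective (k := M) ⟨(cO v).comap (φ : M →+* v.comp), hne⟩
  refine ⟨W, ?_⟩
  have h1 : ∀ x : M, W.abv x ≤ 1 ↔ ‖φ x‖ ≤ 1 := by
    intro x
    rw [← toPl_le_one W x, ← (toPl W).mem_iff, hW]
    rfl
  let a : AbsoluteValue M ℝ :=
    { toFun := fun x => ‖φ x‖
      map_mul' := fun x y => by rw [map_mul, norm_mul]
      nonneg' := fun x => norm_nonneg _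
      eq_zero' := fun x => by rw [norm_eq_zero, map_eq_zero]
      add_le' := fun x y => by rw [map_add]; exact norm_add_le _ _ }
  have ha : ∀ x, a x = ‖φ x‖ := fun x => rfl
  have h2 : a.IsEquiv W.abv := by
    intro x y
    by_cases hy : y = 0
    · subst hy
      rw [map_zero, map_zero, AbsoluteValue.nonpos_iff, AbsoluteValue.nonpos_iff]
    have h3 := (h1 (x / y)).symm
    rw [← ha, map_div₀, map_div₀, div_le_one (a.pos hy), div_le_one (W.abv.pos hy)] at h3
    exact h3
  obtain ⟨c, hc, h⟩ := AbsoluteValue.isEquiv_iff_exists_rpow_eq.mp h2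
  exact ⟨c, hc, fun x => (congrFun h x).symm⟩

/-- The place of an embedding. -/
noncomputable def plE {v : Place R} (φ : M →ₐ[R] v.comp) : Place M := (exists_plE φ).choose

variable {v : Place R}

theorem plE_spec (φ : M →ₐ[R] v.comp) : ∃ c : ℝ, 0 < c ∧ ∀ x : M, (plE φ).abv x = ‖φ x‖ ^ c :=
  (exists_plE φ).choose_spec

theorem plE_ab (φ : M →ₐ[R] v.comp) : Ab (plE φ) v := by
  obtain ⟨c, hc, h⟩ := plE_spec φ
  exact ⟨c, hc, fun x => by rw [h, φ.commutes, norm_alg]⟩

theorem plE_lt (φ : M →ₐ[R] v.comp) (x y : M) : (plE φ).abv x < (plE φ).abv y ↔ ‖φ x‖ < ‖φ y‖ := by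
  obtain ⟨c, hc, h⟩ := plE_spec φ
  rw [h, h]
  exact Real.rpow_lt_rpow_iff (norm_nonneg _) (norm_nonneg _) hc

/-- Different embeddings have different places. -/
theorem plE_inj {φ φ' : M →ₐ[R] v.comp} (h : plE φ = plE φ') : φ = φ' := by
  ext x
  by_contra hne
  have h0 : 0 < ‖φ' x - φ x‖ := norm_pos_iff.2 (sub_ne_zero.2 fun h => hne h.symm)
  obtain ⟨g, hg0, hg1, hg2⟩ := exists_small v h0
  obtain ⟨r, hr⟩ := dense_alg v (φ x) (ε := v.abv g) (v.abv.pos hg0)
  have h1 : ‖φ (x - algebraMap R M r)‖ < ‖φ (algebraMap R M g)‖ := by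
    rw [map_sub, φ.commutes, φ.commutes, norm_alg]
    exact hr
  rw [← plE_lt, h, plE_lt, map_sub, φ'.commutes, φ'.commutes, norm_alg] at h1
  have h2 : ‖φ' x - φ x‖ < v.abv g := by
    have e : φ' x - φ x = (φ' x - algebraMap R v.comp r) + -(φ x - algebraMap R v.comp r) := by
      ring
    rw [e]
    refine (IsUltrametricDist.norm_add_le_max _ _).trans_lt (max_lt h1 ?_)
    rw [norm_neg]
    exact hr
  exact absurd h2 (not_lt.2 hg2.le)

/-- Everything in `M` is totally split at the place. -/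
def TS (R M : Type) [Field R] [Field M] [Algebra R M] (v : Place R) : Prop :=
  ∀ x : M, ((minpoly R x).map (algebraMap R v.comp)).Splits

variable [Algebra.IsSeparable R M]

theorem TS.exists_emb (h : TS R M v) : Nonempty (M →ₐ[R] v.comp) := by
  let pb := Field.powerBasisOfFiniteOfSeparable R M
  have h1 := h pb.gen
  have hint : IsIntegral R pb.gen := Algebra.IsIntegral.isIntegral pb.gen
  obtain ⟨α, hα⟩ := h1.exists_eval_eq_zero (by
    rw [degree_map]
    intro h0
    exact (minpoly.natDegree_pos hint).ne' (natDegree_eq_of_degree_eq_some h0))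
  rw [eval_map_algebraMap] at hα
  exact ⟨pb.lift α hα⟩

/-- The product formula. -/
theorem TS.norm_eq (h : TS R M v) (y : M) :
    algebraMap R v.comp (Algebra.norm R y) = ∏ φ : M →ₐ[R] v.comp, φ y := by
  classical
  let Ω := AlgebraicClosure v.comp
  let ι : v.comp →ₐ[R] Ω := IsScalarTower.toAlgHom R v.comp Ω
  apply (algebraMap v.comp Ω).injective
  rw [map_prod, ← IsScalarTower.algebraMap_apply, Algebra.norm_eq_prod_embeddings R Ω y]
  symm
  refine Fintype.prod_bijective (fun φ : M →ₐ[R] v.comp => ι.comp φ) ⟨?_, ?_⟩ _ _ fun φ => rfl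
  · intro φ φ' hφ
    ext x
    have h1 := DFunLike.congr_fun hφ x
    exact (algebraMap v.comp Ω).injective h1
  · intro σ
    have h1 : ∀ x : M, ∃ z : v.comp, algebraMap v.comp Ω z = σ x := by
      intro x
      have hint : IsIntegral R x := Algebra.IsIntegral.isIntegral x
      have h2 : (((minpoly R x).map (algebraMap R v.comp)).map (algebraMap v.comp Ω)).eval
          (σ x) = 0 := by
        rw [Polynomial.map_map, ← IsScalarTower.algebraMap_eq, eval_map_algebraMap,
          aeval_algHom_apply, minpoly.aeval, map_zero]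
      have h3 : σ x ∈ (((minpoly R x).map (algebraMap R v.comp)).map
          (algebraMap v.comp Ω)).roots := by
        rw [mem_roots]
        · exact h2
        · exact (((minpoly.monic hint).map _).map _).ne_zero
      rw [(h x).roots_map] at h3
      obtain ⟨z, -, hz⟩ := Multiset.mem_map.1 h3
      exact ⟨z, hz⟩
    choose z hz using h1
    have hinj := (algebraMap v.comp Ω).injective
    refine ⟨{ toFun := z
              map_one' := hinj (by rw [hz, map_one, map_one])
              map_mul' := fun x y => hinj (by rw [hz, map_mul σ, map_mul, hz, hz])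
              map_zero' := hinj (by rw [hz, map_zero, map_zero])
              map_add' := fun x y => hinj (by rw [hz, map_add σ, map_add, hz, hz])
              commutes' := fun a => hinj (by
                rw [hz, σ.commutes, ← IsScalarTower.algebraMap_apply]) }, ?_⟩
    ext x
    exact hz x

end emb

section loc

variable {R E M M' : Type} [Field R] [GFF R] [Field E] [Field M] [Field M'] [Algebra R E]
  [Algebra R M] [Algebra R M'] [Algebra M M'] [Algebra E M'] [IsScalarTower R M M']
  [IsScalarTower R E M'] [FiniteDimensional R E] [FiniteDimensional R M] [FiniteDimensional M M']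
  [Algebra.IsSeparable R M] [Algebra.IsSeparable R E] [Algebra.IsSeparable M M'] {v : Place R}

/-- A local norm at the place of an embedding. -/
theorem isN_of_locN (hb : Function.Bijective (toM : M ⊗[R] E →ₐ[M] M')) (φ : M →ₐ[R] v.comp)
    {m : M} (hm : m ≠ 0) (h : LocN M' m (plE φ)) : IsN R E v.comp (φ m) := by
  haveI : GFF M := Hey.H63.gff_of_finite (k := R)
  obtain ⟨δ, hδ, hopen, -⟩ := Hey.H63.loc_open E v
  obtain ⟨g, hg0, hg1, hg2⟩ := exists_small v hδ
  have hgM : algebraMap R M g ≠ 0 := (_root_.map_ne_zero _).mpr hg0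
  obtain ⟨e, he⟩ := approx_norm (E := M') {plE φ} (fun _ => m) (fun W hW => by
    rw [Finset.mem_singleton] at hW
    subst hW
    exact ⟨hm, h⟩) (fun W => W.abv (algebraMap R M g)) fun W _ => W.abv.pos hgM
  have h1 := he _ (Finset.mem_singleton_self _)
  rw [plE_lt, φ.commutes, norm_alg, map_sub, map_one] at h1
  have h2 : IsN R E v.comp (φ (m / Algebra.norm M e)) := hopen _ (h1.trans hg2)
  have hN0 : Algebra.norm M e ≠ 0 := by
    intro h0
    rw [h0, div_zero, map_zero, zero_sub, norm_neg, norm_one] at h1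
    exact absurd h1 (not_lt.2 hg1)
  have h3 : IsN R E v.comp (φ (Algebra.norm M e)) := by
    obtain ⟨y, rfl⟩ := hb.2 e
    have h4 : Algebra.norm M (toM y : M') = Algebra.norm M y :=
      Algebra.norm_eq_of_algEquiv (AlgEquiv.ofBijective toM hb) y
    rw [h4]
    exact ⟨_, norm_map φ y⟩
  have h4 := h2.mul h3
  rwa [← map_mul, div_mul_cancel₀ _ hN0] at h4

/-- The converse. -/
theorem locN_of_isN (hb : Function.Bijective (toM : M ⊗[R] E →ₐ[M] M')) (φ : M →ₐ[R] v.comp)
    {m : M} (hm : m ≠ 0) (h : IsN R E v.comp (φ m)) : LocN M' m (plE φ) := by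
  haveI : GFF M := Hey.H63.gff_of_finite (k := R)
  obtain ⟨δ, hδ, -, hopen⟩ := Hey.H63.loc_open M' (plE φ)
  obtain ⟨c, hc, hcx⟩ := plE_spec φ
  have hφm : 0 < ‖φ m‖ := norm_pos_iff.2 ((_root_.map_ne_zero φ).2 hm)
  have hδ' : 0 < δ ^ c⁻¹ := Real.rpow_pos_of_pos hδ _
  obtain ⟨x, hx⟩ := h
  obtain ⟨δ1, hδ1, h1⟩ := norm_cont (k := R) (E := E) x
    (ε := min (δ ^ c⁻¹) 1 * ‖φ m‖) (mul_pos (lt_min hδ' one_pos) hφm)
  choose r hr using fun i => dense_alg v
    ((Algebra.TensorProduct.basis v.comp (Module.finBasis R E)).repr x i) hδ1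
  have h2 := h1 (∑ i, r i • Module.finBasis R E i) fun i => by
    rw [Basis.repr_sum_self, ← norm_neg, neg_sub]
    exact hr i
  set e := ∑ i, r i • Module.finBasis R E i with he
  rw [hx] at h2
  have h3 : ‖algebraMap R v.comp (Algebra.norm R e) - φ m‖ < ‖φ m‖ :=
    h2.trans_le (mul_le_of_le_one_left hφm.le (min_le_right _ _))
  have h4 : ‖algebraMap R v.comp (Algebra.norm R e)‖ = ‖φ m‖ := Vale.Agent.P011.H63.FB.norm_eq_of_close h3
  have h5 : Algebra.norm R e ≠ 0 := by
    intro h0
    rw [h0, map_zero, norm_zero] at h4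
    exact hφm.ne h4
  have h5' : algebraMap R M (Algebra.norm R e) ≠ 0 := (_root_.map_ne_zero _).2 h5
  have h6 : LocN M' (m / algebraMap R M (Algebra.norm R e)) (plE φ) := by
    refine hopen _ ?_
    rw [hcx]
    have e1 : φ (m / algebraMap R M (Algebra.norm R e) - 1) =
        -((algebraMap R v.comp (Algebra.norm R e) - φ m) /
          algebraMap R v.comp (Algebra.norm R e)) := by
      rw [map_sub, map_div₀, φ.commutes, map_one]
      have : algebraMap R v.comp (Algebra.norm R e) ≠ 0 := (_root_.map_ne_zero _).2 h5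
      field_simp
      ring
    have h7 : ‖φ (m / algebraMap R M (Algebra.norm R e) - 1)‖ < δ ^ c⁻¹ := by
      rw [e1, norm_neg, norm_div, h4, div_lt_iff₀ hφm]
      exact h2.trans_le (mul_le_mul_of_nonneg_right (min_le_left _ _) hφm.le)
    have h8 := Real.rpow_lt_rpow (norm_nonneg _) h7 hc
    rwa [← Real.rpow_mul hδ.le, inv_mul_cancel₀ hc.ne', Real.rpow_one] at h8
  have h7 : Algebra.norm M (algebraMap E M' e) = algebraMap R M (Algebra.norm R e) := by
    have h8 : (toM ((1 : M) ⊗ₜ[R] e) : M') = algebraMap E M' e := by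
      rw [toM_tmul, map_one, one_mul]
    rw [← h8, ← norm_one_tmul]
    have h9 := Algebra.norm_eq_of_algEquiv (AlgEquiv.ofBijective (toM : M ⊗[R] E →ₐ[M] M') hb)
      ((1 : M) ⊗ₜ[R] e)
    exact h9
  have h8 : LocN M' (algebraMap R M (Algebra.norm R e)) (plE φ) := by
    rw [← h7]
    exact Hey.H63.LocN.of_norm _ _
  have h9 := h6.mul h8
  rwa [div_mul_cancel₀ _ h5'] at h9

end loc

end Vale.Agent.P011.H74.Odd
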