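import Vale.Agent.P011.H271.Odd.TopFF
import Vale.Agent.P011.H167.E13

/-!
# The input `E` of the skeleton over function fields, degree prime to the characteristic (helper74)
-/

open Module Filter Topology
open scoped commutatorElement

set_option linter.unusedSectionVars false

namespace Vale.Agent.P011.H74.Odd

open Vale.Agent.P011.H738 Vale.Agent.P011.H271 Vale.Agent.P011.H271.S3 Vale.Agent.P011.H973.PF
open Vale.Agent.P011.H511.FF Vale.Agent.P011.H698 Vale.Agent.P011.H704.HQ
open Vale.Agent.P011.H271.StarF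
open Vale.Agent.P011.H496.Spl (SplAt)
open Vale.Agent.P011.H271.Odd (ModE)

variable {k K D Ω : Type} [Field k] [Field K] [StarRing K] [DivisionRing D] [StarRing D]
  [Algebra k K] [Algebra k D] [Algebra K D] [IsScalarTower k K D] [StarModule K D] {n N : ℕ}
  [Field Ω] [Algebra K Ω]

/-- **The input `E` over function fields**, degree prime to the characteristic. -/
theorem modE_ne (hk : IsGlobalFunctionField k) [GFF k] (hA : Anis k K D n) (ho : Odd n)
    (hn3 : 3 ≤ n) (hch : (n : k) ≠ 0) (f : D →ₐ[K] Matrix (Fin n) (Fin n) Ω)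
    (B : Basis (Fin N) k D) {T : Finset (Place k)} [hTne : Nonempty T]
    (hTA : Adiv k K D ⊆ (T : Set (Place k))) (hTS : ∀ v ∉ T, SplAt K D n v) :
    ModE f B T := by
  intro Q H hQH hH hc
  obtain ⟨v0⟩ := hTne
  obtain ⟨ε, hε, -, h3⟩ := H167.E13.e13F_near' hk hA ho hn3 hch f B (T := (T : Set (Place k)))
    T.finite_toSet ⟨v0, v0.2⟩ hTA (fun v hv => hTS v hv) hQH hH hc
  refine ⟨ε, hε, fun u w hu hw hu1 hw1 => ?_⟩
  have h := h3 ⟨u, hu⟩ ⟨w, hw⟩ (fun v hv => hu1 v hv) (fun v hv => hw1 v hv)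
  exact h

end Vale.Agent.P011.H74.Odd
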