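import Vale.Agent.P011.H74.Odd.Core

/-!
# The two norms lemma over function fields

`R' / R` is Galois of prime degree `p`, different from the characteristic.
-/

open Polynomial Module TensorProduct

set_option linter.unusedSectionVars false
set_option linter.style.haveILetI false

namespace Vale.Agent.P011.H74.Odd

open Vale.Agent.P011.H738 Vale.Agent.P011.H271 Vale.Agent.P011.H271.S3 Vale.Agent.P011.H973.PF
open Vale.Agent.P011.H511.FF
open Vale.Agent.P011.Hey.H63 (LocN finite_not_unr loc_unram Unr)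

/-- An element is a local norm at almost all places. -/
theorem finite_not_locN {R E : Type} [Field R] [GFF R] [Field E] [Algebra R E]
    [FiniteDimensional R E] [Algebra.IsSeparable R E] {x : R} (hx : x ≠ 0) :
    {v : Place R | ¬ LocN E x v}.Finite := by
  let pb := Field.powerBasisOfFiniteOfSeparable R E
  have hint : IsIntegral R pb.gen := Algebra.IsIntegral.isIntegral pb.gen
  have h1 := finite_not_unr (minpoly.monic hint) (minpoly.natDegree_pos hint)
    (Algebra.IsSeparable.isSeparable R pb.gen)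
  refine (h1.union (place_finite hx)).subset fun v hv => ?_
  by_contra hcon
  simp only [Set.mem_union, Set.mem_ofPred_eq, not_or, not_not] at hcon
  obtain ⟨⟨F, hFm, hF, hsep⟩, hx1⟩ := hcon
  exact hv (loc_unram pb hFm hF hsep (d := 1) one_ne_zero (by rw [hx1, map_one, one_pow]))

/-- Elements close to one are local norms. -/
theorem locN_of_one {p : ℕ} (hp : p.Prime) {R E : Type} [Field R] [GFF R] [Field E]
    [Algebra R E] (hpR : (p : R) ≠ 0) (hE : finrank R E = p) {x : R} {v : Place R}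
    (h : v.abv (x - 1) < 1) : LocN E x v := by
  have : FiniteDimensional R E := Module.finite_of_finrank_pos (by rw [hE]; exact hp.pos)
  exact locN_of_near hp hpR hE ⟨1, by rwa [map_one, div_one]⟩

/-- **The two norms lemma over function fields.** -/
theorem two_norm {p : ℕ} (hp : p.Prime) (hN1 : N1 p) (hN2 : N2 p) {R R' : Type} [Field R]
    [GFF R] [Field R'] [Algebra R R'] [FiniteDimensional R R'] [IsGalois R R']
    (hpR : (p : R) ≠ 0) (hdeg : finrank R R' = p) (A : Finset (Place R)) :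
    ∃ v0 : Place R, v0 ∉ A ∧ ∀ c : Place R → R, (∀ v ∈ A, c v ≠ 0 ∧ v.abv (c v) ≤ 1) →
      ∀ x : R, x ≠ 0 → (∀ v ∈ A, v.abv (x - 1) < v.abv (c v)) →
      ∃ V : Finset (Place R), Disjoint V A ∧
      ∀ (M : Type) [Field M] [Algebra R M] [FiniteDimensional R M] [Algebra.IsSeparable R M],
      (∀ v, v = v0 ∨ v ∈ V → TS R M v) →
      ∀ A2 : Finset (Place R), Disjoint V A2 →
      ∀ g : Place R → R, (∀ v, v ∈ A ∨ v ∈ A2 → g v ≠ 0) →
      ∃ (x1 : R') (y : M), y ≠ 0 ∧ x = Algebra.norm R x1 * Algebra.norm R y ∧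
        (∀ v ∈ A, ∀ w : Place R', Ab w v → w.abv (x1 - 1) < w.abv (algebraMap R R' (c v))) ∧
        ∀ v, v ∈ A ∨ v ∈ A2 → ∀ w : Place M, Ab w v →
          w.abv (y - 1) < w.abv (algebraMap R M (g v)) := by
  classical
  obtain ⟨v0, hv0, hr, hn⟩ := hN2 R R' hdeg A (Finset.finite_toSet A)
  refine ⟨v0, hv0, fun c hc x hx hxA => ?_⟩
  have hfin := finite_not_locN (E := R') hx
  have hVA : ∀ v ∈ A, LocN R' x v := fun v hv =>
    locN_of_one hp hpR hdeg ((hxA v hv).trans_le (hc v hv).2)
  refine ⟨hfin.toFinset, ?_, fun M _ _ _ _ hTS A2 hA2 g hg => ?_⟩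
  · rw [Finset.disjoint_left]
    intro v hv hvA
    exact (hfin.mem_toFinset.1 hv) (hVA v hvA)
  haveI : GFF M := Hey.H63.gff_of_finite (k := R)
  haveI : GFF R' := Hey.H63.gff_of_finite (k := R)
  have hTV : ∀ v ∈ hfin.toFinset, TS R M v := fun v hv => hTS v (Or.inr hv)
  let φ : ∀ v : Place R, v ∈ hfin.toFinset → (M →ₐ[R] v.comp) := fun v hv =>
    (hTV v hv).exists_emb.some
  have hfS : {W : Place M | ∃ v ∈ ((A ∪ A2 : Finset (Place R)) : Set (Place R)), Av' W v}.Finite :=
    above_finite (Finset.finite_toSet (A ∪ A2))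
  choose be hbe using fun W : Place M => below_av (k := R) W
  have hbe' : ∀ {W : Place M} {v : Place R}, Ab W v → be W = v := fun h =>
    (hbe _).unique (av_of_ab h)
  -- radii
  let G : Place R → R := fun v => if v ∈ A then (if v.abv (g v) ≤ v.abv (c v) then g v else c v)
    else g v
  have hG0 : ∀ v, v ∈ A ∨ v ∈ A2 → G v ≠ 0 := by
    intro v hv
    change (if _ then _ else _) ≠ _
    split_ifs with h1 h2
    · exact hg v hv
    · exact (hc v h1).1
    · exact hg v hv
  have hGg : ∀ v : Place R, v.abv (G v) ≤ v.abv (g v) := by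
    intro v
    change v.abv (if _ then _ else _) ≤ _
    split_ifs with h1 h2
    · exact le_rfl
    · exact (not_le.1 h2).le
    · exact le_rfl
  have hGc : ∀ v ∈ A, v.abv (G v) ≤ v.abv (c v) := by
    intro v hv
    change v.abv (if _ then _ else _) ≤ _
    rw [if_pos hv]
    split_ifs with h2
    · exact h2
    · exact le_rfl
  obtain ⟨y, hy0, hy1, hy2⟩ := two_norm_core hp hN1 hdeg hr hn hx hfin.toFinset
    (fun v hv => by
      by_contra hcon
      exact hv (hfin.mem_toFinset.2 hcon)) (hTS v0 (Or.inl rfl)) hTV φ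
    hfS.toFinset (fun v hv h => by
      obtain ⟨v', hv', hW⟩ := hfS.mem_toFinset.1 h
      have h1 : v = v' := (av_of_ab (plE_ab (φ v hv))).unique hW
      subst h1
      rcases Finset.mem_union.1 hv' with h2 | h2
      · exact (hfin.mem_toFinset.1 hv) (hVA v h2)
      · exact Finset.disjoint_left.1 hA2 hv h2)
    (fun W => algebraMap R M (G (be W))) (fun W hW => by
      obtain ⟨v', hv', hW'⟩ := hfS.mem_toFinset.1 hW
      have h1 : be W = v' := (hbe W).unique hW'
      rw [h1]
      exact (_root_.map_ne_zero _).2 (hG0 _ (Finset.mem_union.1 hv')))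
  have hynear : ∀ v, v ∈ A ∨ v ∈ A2 → ∀ w : Place M, Ab w v →
      w.abv (y - 1) < w.abv (algebraMap R M (G v)) := by
    intro v hv w hw
    have h1 := hy2 w (hfS.mem_toFinset.2 ⟨v, Finset.mem_union.2 hv, av_of_ab hw⟩)
    rwa [hbe' hw] at h1
  have hN0 : Algebra.norm R y ≠ 0 := Algebra.norm_ne_zero_iff.2 hy0
  have hb0 : x / Algebra.norm R y ≠ 0 := div_ne_zero hx hN0
  have hbA : ∀ v ∈ A, v.abv (x / Algebra.norm R y - 1) < v.abv (c v) := by
    intro v hv
    rw [div_eq_mul_inv]
    refine close_mul v (hc v hv).2 (hxA v hv) (close_inv v (hc v hv).2 ?_)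
    refine norm_near (hc v hv).1 (hc v hv).2 fun W hW => ?_
    refine (hynear v (Or.inl hv) W hW).trans_le ?_
    exact (ab_le_iff hW _ _).2 (hGc v hv)
  obtain ⟨x1, hx1, hx2⟩ := hasse_norm_approx hp hpR hdeg hb0 hy1 (Finset.finite_toSet A) c
    (fun v hv => hc v hv) (fun v hv => hbA v hv)
  refine ⟨x1, y, hy0, ?_, fun v hv w hw => hx2 v hv w (av_of_ab hw), fun v hv w hw =>
    (hynear v hv w hw).trans_le ((ab_le_iff hw _ _).2 (hGg v))⟩
  rw [hx1, div_mul_cancel₀ _ hN0]

end Vale.Agent.P011.H74.Odd
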